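import Vale.Agent.Lib.P075.Defs

/-!
# P075 C1: Jensen inequality for the dyadic averages
-/

namespace Vale.Agent.P075

open Matrix MeasureTheory

theorem measurableSet_dyad (k : ℤ) (n : ℕ) : MeasurableSet (dyad k n) := measurableSet_Ico

theorem volume_dyad (k : ℤ) (n : ℕ) : volume (dyad k n) = ENNReal.ofReal ((2 : ℝ) ^ k) := by
  rw [dyad, Real.volume_Ico]
  congr 1
  ring

theorem dyad_disjoint_of_lt (k : ℤ) {m n : ℕ} (h : m < n) : Disjoint (dyad k m) (dyad k n) := by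
  rw [Set.disjoint_left]
  intro x hx hy
  have h1 : (m : ℝ) + 1 ≤ n := by exact_mod_cast h
  have h2 : (0 : ℝ) < 2 ^ k := by positivity
  have h3 : (2 : ℝ) ^ k * (m + 1) ≤ 2 ^ k * n := mul_le_mul_of_nonneg_left h1 h2.le
  have h4 := hx.2
  have h5 := hy.1
  linarith

theorem dyad_disjoint (k : ℤ) {m n : ℕ} (h : m ≠ n) : Disjoint (dyad k m) (dyad k n) := by
  rcases lt_or_gt_of_ne h with h | h
  · exact dyad_disjoint_of_lt k h
  · exact (dyad_disjoint_of_lt k h).symm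

theorem dyad_subset_Ici (k : ℤ) (n : ℕ) : dyad k n ⊆ Set.Ici 0 := by
  intro x hx
  exact le_trans (by positivity) hx.1

theorem volume_sq (N a b : ℕ) :
    volume (dyad (-(N : ℤ)) a ×ˢ dyad (-(N : ℤ)) b) = ENNReal.ofReal (((4 : ℝ) ^ N)⁻¹) := by
  rw [Measure.volume_eq_prod, Measure.prod_prod, volume_dyad, volume_dyad,
    ← ENNReal.ofReal_mul (by positivity)]
  congr 1
  rw [_root_.zpow_neg, zpow_natCast, ← mul_inv, ← mul_pow]
  norm_num

theorem real_volume_sq (N a b : ℕ) :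
    volume.real (dyad (-(N : ℤ)) a ×ˢ dyad (-(N : ℤ)) b) = ((4 : ℝ) ^ N)⁻¹ := by
  rw [Measure.real, volume_sq, ENNReal.toReal_ofReal (by positivity)]

theorem average_sq (N a b : ℕ) (G : ℝ × ℝ → ℝ) :
    ⨍ p in dyad (-(N : ℤ)) a ×ˢ dyad (-(N : ℤ)) b, G p =
      (4 : ℝ) ^ N * ∫ p in dyad (-(N : ℤ)) a ×ˢ dyad (-(N : ℤ)) b, G p := by
  rw [setAverage_eq, real_volume_sq, inv_inv, smul_eq_mul]

theorem av_eq_average (N : ℕ) (F : ℝ × ℝ → ℝ) (a b : ℕ) :
    av N F a b = ⨍ p in dyad (-(N : ℤ)) a ×ˢ dyad (-(N : ℤ)) b, F p := by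
  rw [average_sq, av]

theorem integrableOn_sq (N a b : ℕ) (G : ℝ × ℝ → ℝ) (hG : Measurable G) (M : ℝ)
    (hM : ∀ p, |G p| ≤ M) :
    IntegrableOn G (dyad (-(N : ℤ)) a ×ˢ dyad (-(N : ℤ)) b) := by
  refine Measure.integrableOn_of_bounded (M := M) ?_ hG.aestronglyMeasurable
    (ae_of_all _ hM)
  rw [volume_sq]
  exact ENNReal.ofReal_ne_top

theorem abs_av_le (N : ℕ) (F : ℝ × ℝ → ℝ) (M : ℝ) (hM : ∀ p, |F p| ≤ M) (a b : ℕ) :
    |av N F a b| ≤ M := by
  have h := norm_setIntegral_le_of_norm_le_const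
    (s := dyad (-(N : ℤ)) a ×ˢ dyad (-(N : ℤ)) b) (μ := volume) (f := F) (C := M)
    (by rw [volume_sq]; exact ENNReal.ofReal_lt_top) (fun x _ => hM x)
  rw [real_volume_sq, Real.norm_eq_abs] at h
  rw [av, abs_mul, abs_of_nonneg (by positivity : (0 : ℝ) ≤ 4 ^ N)]
  calc (4 : ℝ) ^ N * |∫ p in dyad (-(N : ℤ)) a ×ˢ dyad (-(N : ℤ)) b, F p|
      ≤ 4 ^ N * (M * (4 ^ N)⁻¹) := mul_le_mul_of_nonneg_left h (by positivity)
    _ = M := by field_simp

theorem av_cube_le (N : ℕ) (F : ℝ × ℝ → ℝ) (hF : Measurable F) (M : ℝ) (hM : ∀ p, |F p| ≤ M)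
    (a b : ℕ) :
    ((4 : ℝ) ^ N)⁻¹ * |av N F a b| ^ 3 ≤
      ∫ p in dyad (-(N : ℤ)) a ×ˢ dyad (-(N : ℤ)) b, |F p| ^ 3 := by
  have hM0 : 0 ≤ M := (abs_nonneg _).trans (hM 0)
  have h4 : (0 : ℝ) < 4 ^ N := by positivity
  have hv : volume (dyad (-(N : ℤ)) a ×ˢ dyad (-(N : ℤ)) b) ≠ 0 := by
    rw [volume_sq]
    simp only [ne_eq, ENNReal.ofReal_eq_zero, not_le]
    positivity
  have hv' : volume (dyad (-(N : ℤ)) a ×ˢ dyad (-(N : ℤ)) b) ≠ ⊤ := by
    rw [volume_sq]; exact ENNReal.ofReal_ne_top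
  have hi : IntegrableOn (fun p => |F p|) (dyad (-(N : ℤ)) a ×ˢ dyad (-(N : ℤ)) b) :=
    (integrableOn_sq N a b F hF M hM).abs
  have hi3 : IntegrableOn (fun p => |F p| ^ 3) (dyad (-(N : ℤ)) a ×ˢ dyad (-(N : ℤ)) b) := by
    refine integrableOn_sq N a b _ (hF.abs.pow_const 3) (M ^ 3) fun p => ?_
    rw [abs_of_nonneg (by positivity)]
    exact pow_le_pow_left₀ (abs_nonneg _) (hM p) 3
  have hJ := ConvexOn.map_set_average_le (μ := volume)
    (t := dyad (-(N : ℤ)) a ×ˢ dyad (-(N : ℤ)) b) (f := fun p => |F p|)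
    (g := fun x : ℝ => x ^ 3) (s := Set.Ici 0) (convexOn_pow 3)
    (by fun_prop) isClosed_Ici hv hv' (ae_of_all _ fun p => Set.mem_Ici.2 (abs_nonneg _)) hi hi3
  have h1 : |av N F a b| ≤ ⨍ p in dyad (-(N : ℤ)) a ×ˢ dyad (-(N : ℤ)) b, |F p| := by
    rw [average_sq, av, abs_mul, abs_of_nonneg h4.le]
    exact mul_le_mul_of_nonneg_left (abs_integral_le_integral_abs) h4.le
  have h2 : |av N F a b| ^ 3 ≤
      (⨍ p in dyad (-(N : ℤ)) a ×ˢ dyad (-(N : ℤ)) b, |F p|) ^ 3 :=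
    pow_le_pow_left₀ (abs_nonneg _) h1 3
  have h3 := h2.trans hJ
  rw [average_sq] at h3
  calc ((4 : ℝ) ^ N)⁻¹ * |av N F a b| ^ 3
      ≤ ((4 : ℝ) ^ N)⁻¹ * (4 ^ N * ∫ p in dyad (-(N : ℤ)) a ×ˢ dyad (-(N : ℤ)) b, |F p| ^ 3) :=
        mul_le_mul_of_nonneg_left h3 (by positivity)
    _ = _ := by field_simp

theorem integrable_cube (F : ℝ × ℝ → ℝ) (hF : Measurable F) (M : ℝ) (hM : ∀ p, |F p| ≤ M)
    (hS : HasCompactSupport F) : Integrable (fun p => |F p| ^ 3) := by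
  have hK : IsCompact (tsupport F) := hS
  have hsub : Function.support (fun p => |F p| ^ 3) ⊆ tsupport F := by
    intro p hp
    apply subset_tsupport
    simp only [Function.mem_support] at hp ⊢
    intro h
    exact hp (by rw [h]; simp)
  rw [← integrableOn_iff_integrable_of_support_subset hsub]
  refine Measure.integrableOn_of_bounded (M := M ^ 3) hK.measure_lt_top.ne
    (hF.abs.pow_const 3).aestronglyMeasurable (ae_of_all _ fun p => ?_)
  rw [Real.norm_eq_abs, abs_of_nonneg (by positivity)]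
  exact pow_le_pow_left₀ (abs_nonneg _) (hM p) 3

/-- C1. Jensen for the averages. -/
theorem av_bound (N : ℕ) (F : ℝ × ℝ → ℝ) (hF : Measurable F) (M : ℝ) (hM : ∀ p, |F p| ≤ M)
    (hS : HasCompactSupport F) (T : ℕ) :
    ((4 : ℝ) ^ N)⁻¹ * ∑ x ∈ Finset.range T, ∑ y ∈ Finset.range T, |av N F x y| ^ 3
      ≤ ∫ p in quad, |F p| ^ 3 := by
  have hI := integrable_cube F hF M hM hS
  rw [← Finset.sum_product', Finset.mul_sum]
  calc ∑ x ∈ Finset.range T ×ˢ Finset.range T, ((4 : ℝ) ^ N)⁻¹ * |av N F x.1 x.2| ^ 3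
      ≤ ∑ x ∈ Finset.range T ×ˢ Finset.range T,
          ∫ p in dyad (-(N : ℤ)) x.1 ×ˢ dyad (-(N : ℤ)) x.2, |F p| ^ 3 :=
        Finset.sum_le_sum fun x _ => av_cube_le N F hF M hM x.1 x.2
    _ = ∫ p in ⋃ x ∈ Finset.range T ×ˢ Finset.range T,
          dyad (-(N : ℤ)) x.1 ×ˢ dyad (-(N : ℤ)) x.2, |F p| ^ 3 := by
        rw [integral_biUnion_finset]
        · intro i _
          exact (measurableSet_dyad _ _).prod (measurableSet_dyad _ _)
        · intro i _ j _ hij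
          show Disjoint (dyad (-(N : ℤ)) i.1 ×ˢ dyad (-(N : ℤ)) i.2)
            (dyad (-(N : ℤ)) j.1 ×ˢ dyad (-(N : ℤ)) j.2)
          rw [Set.disjoint_prod]
          by_cases h1 : i.1 = j.1
          · right
            exact dyad_disjoint _ fun h2 => hij (Prod.ext h1 h2)
          · left
            exact dyad_disjoint _ h1
        · intro i _
          exact hI.integrableOn
    _ ≤ ∫ p in quad, |F p| ^ 3 := by
        refine setIntegral_mono_set hI.integrableOn (ae_of_all _ fun p => by positivity) ?_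
        refine LE.le.eventuallyLE ?_
        refine Set.iUnion₂_subset fun i _ => ?_
        exact Set.prod_mono (dyad_subset_Ici _ _) (dyad_subset_Ici _ _)

end Vale.Agent.P075
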