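import Vale.Agent.Lib.P075.Step

/-! The potential of `1 × 1` matrices. -/

namespace Vale.Agent.P075

open Matrix

/-- scalar potential -/
theorem tsum_scalar {u : ℝ} (hu : 0 ≤ u) :
    ∑' n : ℤ, (2 : ℝ) ^ n * ((u ^ 2) ^ 2 / (u ^ 2 + (4 : ℝ) ^ n)) ≤ 5 * u ^ 3 := by
  rcases eq_or_lt_of_le hu with h | h
  · rw [← h]; simp
  obtain ⟨N, hN1, hN2⟩ := exists_mem_Ico_zpow (x := u) (y := (2 : ℝ)) h (by norm_num)
  rw [zpow_add₀ (by norm_num), zpow_one] at hN2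
  set f : ℤ → ℝ := fun n => (2 : ℝ) ^ n * ((u ^ 2) ^ 2 / (u ^ 2 + (4 : ℝ) ^ n)) with hf
  have hs : Summable f := summable_psi_scalar (sq_nonneg u)
  have h1 : ∑' n, f n = ∑' n, f (n + N) := ((Equiv.addRight N).tsum_eq f).symm
  have hs1 : Summable fun n => f (n + N) := (Equiv.addRight N).summable_iff.2 hs
  have hs2 : Summable fun n : ℕ => f (n + N) :=
    hs1.comp_injective (i := fun n : ℕ => (n : ℤ)) Nat.cast_injective
  have hs3 : Summable fun n : ℕ => f (-((n : ℤ) + 1) + N) :=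
    hs1.comp_injective (i := fun n : ℕ => (-((n : ℤ) + 1))) (by
      intro a b hab
      simp only at hab
      omega)
  have h2 : ∑' n, f (n + N) = ∑' n : ℕ, f (n + N) + ∑' n : ℕ, f (-((n : ℤ) + 1) + N) :=
    tsum_of_nat_of_neg_add_one hs2 hs3
  have hNpos : (0 : ℝ) < 2 ^ N := by positivity
  have g1 : ∀ n : ℕ, f (n + N) ≤ 2 * u ^ 3 * (1 / 2) ^ n := by
    intro n
    have h2n : (0 : ℝ) < 2 ^ n := by positivity
    simp only [hf]
    rw [four_zpow, zpow_add₀ (by norm_num), zpow_natCast, mul_div_assoc', div_le_iff₀ (by positivity)]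
    rw [one_div, inv_pow]
    have e1 : 2 * u ^ 3 * (2 ^ n)⁻¹ * (u ^ 2 + 2 ^ n * 2 ^ N * (2 ^ n * 2 ^ N))
        = 2 * u ^ 5 * (2 ^ n)⁻¹ + 2 * u ^ 3 * (2 ^ n * (2 ^ N * 2 ^ N)) := by
      field_simp
    rw [e1]
    have e2 : 0 ≤ 2 * u ^ 5 * ((2 : ℝ) ^ n)⁻¹ := by positivity
    have e3 : (2 : ℝ) ^ n * 2 ^ N * (u ^ 2) ^ 2 ≤ 2 * u ^ 3 * (2 ^ n * (2 ^ N * 2 ^ N)) := by
      calc (2 : ℝ) ^ n * 2 ^ N * (u ^ 2) ^ 2 = (2 ^ n * 2 ^ N * u ^ 3) * u := by ring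
        _ ≤ (2 ^ n * 2 ^ N * u ^ 3) * (2 ^ N * 2) :=
            mul_le_mul_of_nonneg_left hN2.le (by positivity)
        _ = _ := by ring
    linarith
  have g2 : ∀ n : ℕ, f (-((n : ℤ) + 1) + N) ≤ u ^ 3 * (1 / 2) * (1 / 2) ^ n := by
    intro n
    have h2n : (0 : ℝ) < 2 ^ n := by positivity
    simp only [hf]
    have e0 : (2 : ℝ) ^ (-((n : ℤ) + 1) + N) = (1 / 2) * (1 / 2) ^ n * 2 ^ N := by
      rw [zpow_add₀ (by norm_num), _root_.zpow_neg, zpow_add₀ (by norm_num), zpow_natCast, zpow_one,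
        one_div, inv_pow, mul_inv]
      ring
    have h4 : (0 : ℝ) < 4 ^ (-((n : ℤ) + 1) + N) := by positivity
    rw [e0]
    have e1 : (u ^ 2) ^ 2 / (u ^ 2 + (4 : ℝ) ^ (-((n : ℤ) + 1) + N)) ≤ u ^ 2 := by
      rw [div_le_iff₀ (by positivity)]
      nlinarith [mul_pos (pow_pos h 2) h4]
    calc 1 / 2 * (1 / 2) ^ n * 2 ^ N
          * ((u ^ 2) ^ 2 / (u ^ 2 + (4 : ℝ) ^ (-((n : ℤ) + 1) + N)))
        ≤ 1 / 2 * (1 / 2) ^ n * u * u ^ 2 := by
          apply mul_le_mul _ e1 (by positivity) (by positivity)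
          exact mul_le_mul_of_nonneg_left hN1 (by positivity)
      _ = _ := by ring
  have geo : ∑' n : ℕ, ((1 : ℝ) / 2) ^ n = 2 := tsum_geometric_two
  have sgeo : Summable fun n : ℕ => ((1 : ℝ) / 2) ^ n := summable_geometric_two
  have k1 : ∑' n : ℕ, f (n + N) ≤ 2 * u ^ 3 * 2 := by
    have := Summable.tsum_le_tsum g1 hs2 (sgeo.mul_left _)
    rwa [tsum_mul_left, geo] at this
  have k2 : ∑' n : ℕ, f (-((n : ℤ) + 1) + N) ≤ u ^ 3 * (1 / 2) * 2 := by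
    have := Summable.tsum_le_tsum g2 hs3 (sgeo.mul_left _)
    rwa [tsum_mul_left, geo] at this
  rw [h1, h2]
  linarith

section
variable {ι : Type*} [Fintype ι] [DecidableEq ι]

theorem psi_one [Unique ι] (R : Matrix ι ι ℝ) {u : ℝ} (hu : 0 ≤ u)
    (h : R default default = u ^ 2) : psi R ≤ 5 * u ^ 3 := by
  have hR : R = (1 : Matrix ι ι ℝ) * diagonal (fun _ => u ^ 2) * (1 : Matrix ι ι ℝ)ᵀ := by
    rw [Matrix.one_mul, Matrix.transpose_one, Matrix.mul_one]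
    ext i j
    rw [Unique.eq_default i, Unique.eq_default j, Matrix.diagonal_apply_eq, h]
  have h1 : psi R = ∑' n : ℤ, (2 : ℝ) ^ n * ((u ^ 2) ^ 2 / (u ^ 2 + (4 : ℝ) ^ n)) := by
    unfold psi
    congr 1
    funext n
    rw [hR, rho_spectral (by simp) (by simp) (fun _ => sq_nonneg u) (by positivity)]
    simp
  rw [h1]
  exact tsum_scalar hu

theorem pot_one [Unique ι] (A B : Matrix ι ι ℝ) :
    pot A B ≤ 8 * (|A default default| ^ 3 + |B default default| ^ 3) := by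
  set x := |A default default| with hx
  set y := |B default default| with hy
  have hx0 : 0 ≤ x := abs_nonneg _
  have hy0 : 0 ≤ y := abs_nonneg _
  have hu := Real.sqrt_nonneg (x ^ 2 + y ^ 2)
  have hu2 : Real.sqrt (x ^ 2 + y ^ 2) ^ 2 = x ^ 2 + y ^ 2 := Real.sq_sqrt (by positivity)
  set u := Real.sqrt (x ^ 2 + y ^ 2) with hudef
  have h1 : (Aᵀ * A + B * Bᵀ) default default = u ^ 2 := by
    rw [hu2, hx, hy, sq_abs, sq_abs]
    simp [Matrix.mul_apply, sq]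
  have h2 : pot A B ≤ 5 * u ^ 3 := psi_one _ hu h1
  refine h2.trans ?_
  have h3 : (5 * u ^ 3) ^ 2 ≤ (8 * (x ^ 3 + y ^ 3)) ^ 2 := by
    have h4 : (5 * u ^ 3) ^ 2 = 25 * (u ^ 2) ^ 3 := by ring
    rw [h4, hu2]
    have h5 : 0 ≤ (x - y) ^ 2 * (x ^ 4 + 2 * x ^ 3 * y + 2 * x * y ^ 3 + y ^ 4) := by positivity
    have h6 : (x ^ 2 + y ^ 2) ^ 3 ≤ 2 * (x ^ 3 + y ^ 3) ^ 2 := by nlinarith [h5]
    nlinarith [sq_nonneg (x ^ 3 + y ^ 3)]
  exact le_of_sq_le_sq h3 (by positivity)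

theorem pot3_one [Unique ι] (A B C : Matrix ι ι ℝ) :
    pot3 A B C ≤ 16 * (|A default default| ^ 3 + |B default default| ^ 3
      + |C default default| ^ 3) := by
  have h1 := pot_one A B
  have h2 := pot_one B C
  have h3 := pot_one C A
  unfold pot3
  linarith

end

end Vale.Agent.P075
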