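import Vale.Agent.Lib.P075.Sum

/-! Comparison of the coupling sum with the gap. -/

namespace Vale.Agent.P075

open Matrix

theorem shift_bound {g h : ℤ → ℝ} (hg : Summable g) (hh : Summable h)
    (key : ∀ n, g n ≤ 3 * h n + 1 / 2 * g (n + 1)) : ∑' n, g n ≤ 6 * ∑' n, h n := by
  have hG1 : Summable fun n => g (n + 1) := (Equiv.addRight (1 : ℤ)).summable_iff.2 hg
  have hG2 : ∑' n, g (n + 1) = ∑' n, g n := (Equiv.addRight (1 : ℤ)).tsum_eq g
  have h := Summable.tsum_le_tsum key hg ((hh.mul_left 3).add (hG1.mul_left (1 / 2)))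
  rw [Summable.tsum_add (hh.mul_left 3) (hG1.mul_left (1 / 2)), tsum_mul_left, tsum_mul_left,
    hG2] at h
  linarith

section
variable {ι : Type*} [Fintype ι] [DecidableEq ι]

theorem psd_spec (U : Matrix ι ι ℝ) {d : ι → ℝ} (hd : ∀ i, 0 ≤ d i) :
    (U * diagonal d * Uᵀ).PosSemidef := by
  have := (Matrix.PosSemidef.diagonal (d := d) hd).mul_mul_conjTranspose_same U
  rwa [Matrix.conjTranspose_eq_transpose_of_trivial] at this

theorem trace_Lf_Lf {U V : Matrix ι ι ℝ} {r q : ι → ℝ} (hU1 : Uᵀ * U = 1) (hU2 : U * Uᵀ = 1)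
    (hV1 : Vᵀ * V = 1) (hV2 : V * Vᵀ = 1) (hr : ∀ i, 0 ≤ r i) (hq : ∀ i, 0 ≤ q i)
    {s : ℝ} (hs : 0 < s) :
    (Lf s (U * diagonal r * Uᵀ) * Lf s (V * diagonal q * Vᵀ)).trace
      = ∑ i, ∑ j, ((Uᵀ * V) i j) ^ 2 * (r i / (r i + s) * (q j / (q j + s))) := by
  rw [Lf_spectral hU1 hU2 hr hs, Lf_spectral hV1 hV2 hq hs, trace_spec_mul]
  apply Finset.sum_congr rfl
  intro i _
  have h1 : (fun k => U k i) ⬝ᵥ (V * diagonal (fun i => q i / (q i + s)) * Vᵀ) *ᵥ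
      (fun k => U k i) = ∑ j, (q j / (q j + s)) * ((Uᵀ * V) i j) ^ 2 := by
    rw [Matrix.mul_assoc, ← Matrix.mulVec_mulVec, ← Matrix.mulVec_mulVec,
        Matrix.dotProduct_mulVec, ← Matrix.mulVec_transpose, dotProduct]
    apply Finset.sum_congr rfl
    intro j _
    rw [Matrix.mulVec_diagonal]
    have : (Vᵀ *ᵥ fun k => U k i) j = (Uᵀ * V) i j := by
      rw [Matrix.mulVec, dotProduct, Matrix.mul_apply]
      apply Finset.sum_congr rfl
      intro k _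
      rw [Matrix.transpose_apply, Matrix.transpose_apply, mul_comm]
    rw [this]; ring
  rw [h1, Finset.mul_sum]
  apply Finset.sum_congr rfl
  intro j _
  ring

/-- terms of the coupling sum -/
noncomputable def Gs (R R' : Matrix ι ι ℝ) (n : ℤ) : ℝ :=
  (8 : ℝ) ^ n * (Lf ((4 : ℝ) ^ n) R * Lf ((4 : ℝ) ^ n) R').trace

theorem Gs_spectral {U V : Matrix ι ι ℝ} {r q : ι → ℝ} (hU1 : Uᵀ * U = 1) (hU2 : U * Uᵀ = 1)
    (hV1 : Vᵀ * V = 1) (hV2 : V * Vᵀ = 1) (hr : ∀ i, 0 ≤ r i) (hq : ∀ i, 0 ≤ q i) (n : ℤ) :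
    Gs (U * diagonal r * Uᵀ) (V * diagonal q * Vᵀ) n
      = ∑ i, ∑ j, ((Uᵀ * V) i j) ^ 2 * kap (r i) (q j) n := by
  unfold Gs kap
  rw [trace_Lf_Lf hU1 hU2 hV1 hV2 hr hq (by positivity), Finset.mul_sum]
  apply Finset.sum_congr rfl
  intro i _
  rw [Finset.mul_sum]
  apply Finset.sum_congr rfl
  intro j _
  ring

theorem summable_Gs {R R' : Matrix ι ι ℝ} (hR : R.PosSemidef) (hR' : R'.PosSemidef) :
    Summable (Gs R R') := by
  obtain ⟨U, r, hU1, hU2, hr, hRU⟩ := spectral hR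
  obtain ⟨V, q, hV1, hV2, hq, hRV⟩ := spectral hR'
  have : Gs R R' = fun n => ∑ i, ∑ j, ((Uᵀ * V) i j) ^ 2 * kap (r i) (q j) n := by
    funext n
    rw [hRU, hRV, Gs_spectral hU1 hU2 hV1 hV2 hr hq]
  rw [this]
  exact summable_sum fun i _ => summable_sum fun j _ => (summable_kap (hr i) (hq j)).mul_left _

theorem tsum_Gs_spectral {U V : Matrix ι ι ℝ} {r q : ι → ℝ} (hU1 : Uᵀ * U = 1)
    (hU2 : U * Uᵀ = 1)
    (hV1 : Vᵀ * V = 1) (hV2 : V * Vᵀ = 1) (hr : ∀ i, 0 ≤ r i) (hq : ∀ i, 0 ≤ q i) :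
    ∑' n, Gs (U * diagonal r * Uᵀ) (V * diagonal q * Vᵀ) n
      = ∑ i, ∑ j, ((Uᵀ * V) i j) ^ 2 * ∑' n, kap (r i) (q j) n := by
  have h1 : ∀ i j, Summable fun n => ((Uᵀ * V) i j) ^ 2 * kap (r i) (q j) n :=
    fun i j => (summable_kap (hr i) (hq j)).mul_left _
  simp only [Gs_spectral hU1 hU2 hV1 hV2 hr hq]
  rw [Summable.tsum_finsetSum (fun i _ => summable_sum fun j _ => h1 i j)]
  apply Finset.sum_congr rfl
  intro i _
  rw [Summable.tsum_finsetSum (fun j _ => h1 i j)]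
  apply Finset.sum_congr rfl
  intro j _
  rw [tsum_mul_left]

theorem Lf_psd {R : Matrix ι ι ℝ} (hR : R.PosSemidef) {s : ℝ} (hs : 0 < s) :
    (Lf s R).PosSemidef := by
  obtain ⟨U, r, hU1, hU2, hr, hRU⟩ := spectral hR
  rw [hRU, Lf_spectral hU1 hU2 hr hs]
  apply psd_spec
  intro i
  have := hr i
  positivity

theorem Lf_mono {R P : Matrix ι ι ℝ} (hP : P.PosSemidef) (h : (R - P).PosSemidef) {s : ℝ}
    (hs : 0 < s) : (Lf s R - Lf s P).PosSemidef := by
  have hR : R.PosSemidef := by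
    have := h.add hP
    rwa [sub_add_cancel] at this
  have h1 : Lf s R - Lf s P
      = s • ((P + s • (1 : Matrix ι ι ℝ))⁻¹ - (R + s • (1 : Matrix ι ι ℝ))⁻¹) := by
    unfold Lf
    rw [smul_sub]; abel
  rw [h1]
  apply Matrix.PosSemidef.smul _ hs.le
  apply inv_sub_psd (posDef_add_smul hR hs) (posDef_add_smul hP hs)
  rwa [add_sub_add_right_eq_sub]

theorem Lf_four {R : Matrix ι ι ℝ} (hR : R.PosSemidef) {s : ℝ} (hs : 0 < s) :
    ((4 : ℝ) • Lf (4 * s) R - Lf s R).PosSemidef := by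
  obtain ⟨U, r, hU1, hU2, hr, hRU⟩ := spectral hR
  have h1 : (4 : ℝ) • Lf (4 * s) R - Lf s R
      = U * diagonal (fun i => 3 * r i ^ 2 / ((r i + s) * (r i + 4 * s))) * Uᵀ := by
    rw [hRU, Lf_spectral hU1 hU2 hr hs, Lf_spectral hU1 hU2 hr (by positivity),
      ← Matrix.smul_mul, ← Matrix.mul_smul, ← Matrix.sub_mul, ← Matrix.mul_sub]
    congr 2
    ext i j
    by_cases hij : i = j
    · subst hij
      have := hr i
      have h1 : r i + s ≠ 0 := by positivity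
      have h2 : r i + 4 * s ≠ 0 := by positivity
      simp only [Matrix.sub_apply, Matrix.smul_apply, Matrix.diagonal_apply_eq, smul_eq_mul]
      field_simp
      ring
    · simp [hij]
  rw [h1]
  apply psd_spec
  intro i
  have := hr i
  positivity

theorem trace_mono_left {X Y Z : Matrix ι ι ℝ} (h : (Y - X).PosSemidef) (hZ : Z.PosSemidef) :
    (X * Z).trace ≤ (Y * Z).trace := by
  have := trace_mul_nonneg h hZ
  rw [Matrix.sub_mul, Matrix.trace_sub] at this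
  linarith

theorem trace_mono_right {X Y Z : Matrix ι ι ℝ} (h : (Y - X).PosSemidef) (hZ : Z.PosSemidef) :
    (Z * X).trace ≤ (Z * Y).trace := by
  have := trace_mul_nonneg hZ h
  rw [Matrix.mul_sub, Matrix.trace_sub] at this
  linarith

theorem Gs_mono {R P R' P' : Matrix ι ι ℝ} (hP : P.PosSemidef) (h : (R - P).PosSemidef)
    (hP' : P'.PosSemidef) (h' : (R' - P').PosSemidef) (n : ℤ) : Gs P P' n ≤ Gs R R' n := by
  have hs : (0 : ℝ) < 4 ^ n := by positivity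
  have hR : R.PosSemidef := by
    have := h.add hP
    rwa [sub_add_cancel] at this
  unfold Gs
  apply mul_le_mul_of_nonneg_left _ (by positivity)
  exact (trace_mono_right (Lf_mono hP' h' hs) (Lf_psd hP hs)).trans
    (trace_mono_left (Lf_mono hP h hs) (by
      have : R'.PosSemidef := by
        have := h'.add hP'
        rwa [sub_add_cancel] at this
      exact Lf_psd this hs))

theorem summable_gap {R R' : Matrix ι ι ℝ} (hR : R.PosSemidef) (hR' : R'.PosSemidef) :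
    Summable fun n : ℤ => (2 : ℝ) ^ n * gap ((4 : ℝ) ^ n) R R' := by
  have h := ((summable_psi (hR.add hR')).sub (summable_psi hR)).sub (summable_psi hR')
  refine h.congr fun n => ?_
  unfold gap
  ring

theorem gap_key {R R' : Matrix ι ι ℝ} (hR : R.PosSemidef) (hR' : R'.PosSemidef) {s : ℝ}
    (hs : 0 < s) : s * (Lf s R * Lf s R').trace
      ≤ 3 * gap s R R' + 4 * s * (Lf (4 * s) R * Lf (4 * s) R').trace := by
  have h1 := gap_lower hR hR' hs
  have h4s : 0 < 4 * s := by positivity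
  rw [Matrix.sub_mul, Matrix.trace_sub] at h1
  have h3 : (Lf (4 * s) R * Lf s R').trace
      ≤ 4 * (Lf (4 * s) R * Lf (4 * s) R').trace := by
    have := trace_mono_right (Lf_four hR' hs) (Lf_psd hR h4s)
    rwa [Matrix.mul_smul, Matrix.trace_smul, smul_eq_mul] at this
  nlinarith [mul_le_mul_of_nonneg_left h3 hs.le]

theorem Gs_key {R R' : Matrix ι ι ℝ} (hR : R.PosSemidef) (hR' : R'.PosSemidef) (n : ℤ) :
    Gs R R' n ≤ 3 * ((2 : ℝ) ^ n * gap ((4 : ℝ) ^ n) R R') + 1 / 2 * Gs R R' (n + 1) := by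
  have hs : (0 : ℝ) < 4 ^ n := by positivity
  have h2 : (0 : ℝ) < 2 ^ n := by positivity
  have h1 := mul_le_mul_of_nonneg_left (gap_key hR hR' hs) h2.le
  have e4 : (4 : ℝ) ^ (n + 1) = 4 * 4 ^ n := by
    rw [zpow_add₀ (by norm_num), zpow_one]; ring
  have e8 : (8 : ℝ) ^ (n + 1) = 8 * 8 ^ n := by
    rw [zpow_add₀ (by norm_num), zpow_one]; ring
  have e82 : (8 : ℝ) ^ n = 2 ^ n * 4 ^ n := by
    rw [← mul_zpow]; norm_num
  unfold Gs
  rw [e8, e4, e82]
  set x := (Lf ((4 : ℝ) ^ n) R * Lf ((4 : ℝ) ^ n) R').trace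
  set y := (Lf (4 * (4 : ℝ) ^ n) R * Lf (4 * (4 : ℝ) ^ n) R').trace
  set g := gap ((4 : ℝ) ^ n) R R'
  linarith

theorem G_le_gap {R R' : Matrix ι ι ℝ} (hR : R.PosSemidef) (hR' : R'.PosSemidef) :
    ∑' n, Gs R R' n ≤ 6 * ∑' n : ℤ, (2 : ℝ) ^ n * gap ((4 : ℝ) ^ n) R R' :=
  shift_bound (summable_Gs hR hR') (summable_gap hR hR') (Gs_key hR hR')

end

end Vale.Agent.P075
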