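import Mathlib

/-!
# P075: auxiliary definitions for the boundedness of the dyadic triangular Hilbert transform
-/

namespace Vale.Agent.P075

open Matrix

/-- sign of a digit. -/
def sg (b : Bool) : ℝ := if b then -1 else 1

section
variable {ι : Type*} [Fintype ι] [DecidableEq ι]

/-- `tr R² (R+s)⁻¹`, written with the resolvent. -/
noncomputable def rho (s : ℝ) (R : Matrix ι ι ℝ) : ℝ :=
  R.trace - s * Fintype.card ι + s ^ 2 * ((R + s • (1 : Matrix ι ι ℝ))⁻¹).trace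

/-- the potential `∑_n 2^n tr R² (R+4^n)⁻¹`, comparable to `tr R^{3/2}`. -/
noncomputable def psi (R : Matrix ι ι ℝ) : ℝ := ∑' n : ℤ, (2 : ℝ) ^ n * rho ((4 : ℝ) ^ n) R

/-- potential of a pair of matrices. -/
noncomputable def pot (A B : Matrix ι ι ℝ) : ℝ := psi (Aᵀ * A + B * Bᵀ)

/-- sum of the three potentials. -/
noncomputable def pot3 (A B C : Matrix ι ι ℝ) : ℝ := pot A B + pot B C + pot C A

/-- block of a `Bool × ι` matrix. -/
def blk (A : Matrix (Bool × ι) (Bool × ι) ℝ) (a b : Bool) : Matrix ι ι ℝ :=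
  Matrix.of fun x y => A (a, x) (b, y)

end

/-- matrix of a function of two naturals on the cell of side `2^k` with indices `m, n`. -/
def cm (f : ℕ → ℕ → ℝ) (k m n : ℕ) : Matrix (Fin (2 ^ k)) (Fin (2 ^ k)) ℝ :=
  Matrix.of fun x y => f (2 ^ k * m + x) (2 ^ k * n + y)

/-- sign of the top digit of `x < 2^(k+1)`. -/
def ts (k x : ℕ) : ℝ := if x < 2 ^ k then 1 else -1

/-- discrete form on the cell of side `2^(k+1)` with indices `m, n, m xor n`. -/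
noncomputable def Dd (f₀ f₁ f₂ : ℕ → ℕ → ℝ) (k m n : ℕ) : ℝ :=
  ∑ x ∈ Finset.range (2 ^ (k + 1)), ∑ y ∈ Finset.range (2 ^ (k + 1)),
    ∑ z ∈ Finset.range (2 ^ (k + 1)),
      ts k x * ts k y * ts k z *
        (f₀ (2 ^ (k + 1) * m + x) (2 ^ (k + 1) * n + y) *
          f₁ (2 ^ (k + 1) * n + y) (2 ^ (k + 1) * (m ^^^ n) + z) *
          f₂ (2 ^ (k + 1) * (m ^^^ n) + z) (2 ^ (k + 1) * m + x))

/-- dyadic interval `[2^k n, 2^k (n+1))`. -/
def dyad (k : ℤ) (n : ℕ) : Set ℝ := Set.Ico ((2 : ℝ) ^ k * n) ((2 : ℝ) ^ k * (n + 1))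

/-- Haar function of the dyadic interval: `1` on the left half, `-1` on the right half. -/
noncomputable def haar (k : ℤ) (n : ℕ) (x : ℝ) : ℝ :=
  if x ∈ Set.Ico ((2 : ℝ) ^ k * n) ((2 : ℝ) ^ k * (n + 1 / 2)) then 1
  else if x ∈ Set.Ico ((2 : ℝ) ^ k * (n + 1 / 2)) ((2 : ℝ) ^ k * (n + 1)) then -1 else 0

/-- the form `L_I` of one triple of dyadic intervals of length `2^k`. -/
noncomputable def LI (F₀ F₁ F₂ : ℝ × ℝ → ℝ) (k : ℤ) (n : ℕ × ℕ × ℕ) : ℝ :=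
  (2 : ℝ) ^ (-k) * ∫ x : ℝ × ℝ × ℝ in dyad k n.1 ×ˢ dyad k n.2.1 ×ˢ dyad k n.2.2,
    F₀ (x.1, x.2.1) * F₁ (x.2.1, x.2.2) * F₂ (x.2.2, x.1) *
      (haar k n.1 x.1 * haar k n.2.1 x.2.1 * haar k n.2.2 x.2.2)

/-- average of `F` over the dyadic square of side `2^(-N)` with indices `a, b`. -/
noncomputable def av (N : ℕ) (F : ℝ × ℝ → ℝ) (a b : ℕ) : ℝ :=
  (4 : ℝ) ^ N * ∫ p in dyad (-(N : ℤ)) a ×ˢ dyad (-(N : ℤ)) b, F p

/-- the quadrant `[0,∞)²`. -/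
def quad : Set (ℝ × ℝ) := Set.Ici 0 ×ˢ Set.Ici 0

end Vale.Agent.P075
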