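import Vale.Agent.Lib.P075.Defs

/-!
# P075, module B: telescoping over the dyadic cells
-/

namespace Vale.Agent.P075

open Matrix Finset

/-- digits: `Bool × Fin (2^k) ≃ Fin (2^(k+1))`, `(a, i) ↦ 2^k * a + i`. -/
def digEquiv (k : ℕ) : Bool × Fin (2 ^ k) ≃ Fin (2 ^ (k + 1)) :=
  ((Equiv.prodCongr finTwoEquiv.symm (Equiv.refl (Fin (2 ^ k)))).trans finProdFinEquiv).trans
    (finCongr (by rw [pow_succ, mul_comm]))

theorem digEquiv_val (k : ℕ) (p : Bool × Fin (2 ^ k)) :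
    ((digEquiv k p : Fin (2 ^ (k + 1))) : ℕ) = 2 ^ k * p.1.toNat + p.2 := by
  rcases p with ⟨a, i⟩
  cases a <;> simp [digEquiv, finTwoEquiv, add_comm]

theorem sum_range_dig (k : ℕ) (g : ℕ → ℝ) :
    ∑ x ∈ range (2 ^ (k + 1)), g x = ∑ p : Bool × Fin (2 ^ k), g (2 ^ k * p.1.toNat + p.2) := by
  rw [Finset.sum_range]
  rw [← Equiv.sum_comp (digEquiv k)]
  refine Finset.sum_congr rfl fun p _ => ?_
  rw [digEquiv_val]

theorem ts_dig (k : ℕ) (p : Bool × Fin (2 ^ k)) : ts k (2 ^ k * p.1.toNat + p.2) = sg p.1 := by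
  rcases p with ⟨a, i⟩
  have hi := i.2
  cases a
  · simp [ts, sg]
  · simp [ts, sg]

theorem cm_blk (f : ℕ → ℕ → ℝ) (k m n : ℕ) (a b : Bool) :
    blk ((cm f (k + 1) m n).submatrix (digEquiv k) (digEquiv k)) a b
      = cm f k (Nat.bit a m) (Nat.bit b n) := by
  ext i j
  simp only [blk, cm, Matrix.of_apply, Matrix.submatrix_apply, digEquiv_val]
  congr 1
  · cases a <;> simp [Nat.bit, pow_succ] <;> ring
  · cases b <;> simp [Nat.bit, pow_succ] <;> ring

theorem sum_blk {ι : Type} [Fintype ι] [DecidableEq ι] (A B C : Matrix (Bool × ι) (Bool × ι) ℝ) :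
    ∑ a : Bool, ∑ b : Bool, ∑ c : Bool, sg a * sg b * sg c *
        (blk A a b * blk B b c * blk C c a).trace
      = ∑ p : Bool × ι, ∑ q : Bool × ι, ∑ r : Bool × ι,
          sg p.1 * sg q.1 * sg r.1 * (A p q * B q r * C r p) := by
  simp only [Fintype.sum_prod_type, Matrix.trace, Matrix.diag_apply, Matrix.mul_apply, blk,
    Matrix.of_apply, Finset.sum_mul, Finset.mul_sum]
  refine Finset.sum_congr rfl fun a _ => ?_
  rw [Finset.sum_congr rfl fun b _ => Finset.sum_comm]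
  rw [Finset.sum_comm]
  refine Finset.sum_congr rfl fun i _ => ?_
  refine Finset.sum_congr rfl fun b _ => ?_
  rw [Finset.sum_congr rfl fun c _ => Finset.sum_comm]
  rw [Finset.sum_comm]

/-- the discrete form in matrix notation. -/
theorem Dd_eq (f₀ f₁ f₂ : ℕ → ℕ → ℝ) (k m n : ℕ) :
    Dd f₀ f₁ f₂ k m n = ∑ a : Bool, ∑ b : Bool, ∑ c : Bool, sg a * sg b * sg c *
        (blk ((cm f₀ (k + 1) m n).submatrix (digEquiv k) (digEquiv k)) a b *
          blk ((cm f₁ (k + 1) n (m ^^^ n)).submatrix (digEquiv k) (digEquiv k)) b c *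
          blk ((cm f₂ (k + 1) (m ^^^ n) m).submatrix (digEquiv k) (digEquiv k)) c a).trace := by
  rw [sum_blk, Dd, sum_range_dig]
  refine Finset.sum_congr rfl fun p _ => ?_
  rw [sum_range_dig]
  refine Finset.sum_congr rfl fun q _ => ?_
  rw [sum_range_dig]
  refine Finset.sum_congr rfl fun r _ => ?_
  simp only [ts_dig, cm, Matrix.submatrix_apply, Matrix.of_apply, digEquiv_val]

/-- sum over a dyadic range of the next finer scale. -/
theorem sum_range_bit (N : ℕ) (g : ℕ → ℝ) :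
    ∑ m ∈ range (2 * N), g m = ∑ m ∈ range N, ∑ a : Bool, g (Nat.bit a m) := by
  induction N with
  | zero => simp
  | succ N ih =>
    rw [Finset.sum_range_succ, ← ih, show 2 * (N + 1) = 2 * N + 1 + 1 by ring,
      Finset.sum_range_succ, Finset.sum_range_succ]
    simp [Nat.bit]
    ring

theorem xor_bit' (a b : Bool) (m n : ℕ) :
    Nat.bit a m ^^^ Nat.bit b n = Nat.bit (xor a b) (m ^^^ n) := by
  rw [Nat.xor_bit]

/-- `x ↦ x xor y` is a bijection of `[0, 2^K)`. -/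
theorem sum_range_xor (K : ℕ) (y : ℕ) (hy : y < 2 ^ K) (g : ℕ → ℝ) :
    ∑ x ∈ range (2 ^ K), g (x ^^^ y) = ∑ x ∈ range (2 ^ K), g x := by
  refine Finset.sum_nbij' (fun x => x ^^^ y) (fun x => x ^^^ y) ?_ ?_ ?_ ?_ ?_
  · intro x hx
    simp only [Finset.mem_range] at hx ⊢
    exact Nat.xor_lt_two_pow hx hy
  · intro x hx
    simp only [Finset.mem_range] at hx ⊢
    exact Nat.xor_lt_two_pow hx hy
  · intro x _
    simp
  · intro x _
    simp
  · intro x _
    rfl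

/-- statement of the one-step inequality. -/
def OneStep : Prop :=
  ∀ (ι : Type) [Fintype ι] [DecidableEq ι] (A B C : Matrix (Bool × ι) (Bool × ι) ℝ),
    |∑ a : Bool, ∑ b : Bool, ∑ c : Bool, sg a * sg b * sg c *
        (blk A a b * blk B b c * blk C c a).trace|
      ≤ 120 * (2 * (∑ a : Bool, ∑ b : Bool,
          pot3 (blk A a b) (blk B b (xor a b)) (blk C (xor a b) a)) - pot3 A B C)

section
variable (f₀ f₁ f₂ : ℕ → ℕ → ℝ)

/-- normalised potential of a cell. -/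
noncomputable def cellPot (k m n : ℕ) : ℝ :=
  ((2 : ℝ) ^ k)⁻¹ * pot3 (cm f₀ k m n) (cm f₁ k n (m ^^^ n)) (cm f₂ k (m ^^^ n) m)

theorem pot_submatrix
    (hre : ∀ (ι κ : Type) [Fintype ι] [DecidableEq ι] [Fintype κ] [DecidableEq κ] (e : ι ≃ κ)
      (R : Matrix ι ι ℝ), psi (R.submatrix e.symm e.symm) = psi R)
    {ι κ : Type} [Fintype ι] [DecidableEq ι] [Fintype κ] [DecidableEq κ] (e : κ ≃ ι)
    (A B : Matrix ι ι ℝ) : pot (A.submatrix e e) (B.submatrix e e) = pot A B := by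
  unfold pot
  rw [← hre ι κ e.symm (Aᵀ * A + B * Bᵀ)]
  congr 1
  simp only [Equiv.symm_symm, Matrix.transpose_submatrix, Matrix.submatrix_mul_equiv]
  rfl

theorem cell_step (hstep : OneStep)
    (hre : ∀ (ι κ : Type) [Fintype ι] [DecidableEq ι] [Fintype κ] [DecidableEq κ] (e : ι ≃ κ)
      (R : Matrix ι ι ℝ), psi (R.submatrix e.symm e.symm) = psi R)
    (k m n : ℕ) :
    ((2 : ℝ) ^ (k + 1))⁻¹ * |Dd f₀ f₁ f₂ k m n| ≤
      120 * ((∑ a : Bool, ∑ b : Bool, cellPot f₀ f₁ f₂ k (Nat.bit a m) (Nat.bit b n))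
        - cellPot f₀ f₁ f₂ (k + 1) m n) := by
  have h := hstep (Fin (2 ^ k)) ((cm f₀ (k + 1) m n).submatrix (digEquiv k) (digEquiv k))
    ((cm f₁ (k + 1) n (m ^^^ n)).submatrix (digEquiv k) (digEquiv k))
    ((cm f₂ (k + 1) (m ^^^ n) m).submatrix (digEquiv k) (digEquiv k))
  rw [← Dd_eq] at h
  simp only [cm_blk] at h
  have h2 : pot3 ((cm f₀ (k + 1) m n).submatrix (digEquiv k) (digEquiv k))
      ((cm f₁ (k + 1) n (m ^^^ n)).submatrix (digEquiv k) (digEquiv k))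
      ((cm f₂ (k + 1) (m ^^^ n) m).submatrix (digEquiv k) (digEquiv k)) =
      pot3 (cm f₀ (k + 1) m n) (cm f₁ (k + 1) n (m ^^^ n)) (cm f₂ (k + 1) (m ^^^ n) m) := by
    simp only [pot3, pot_submatrix hre]
  rw [h2] at h
  have hpos : (0 : ℝ) < ((2 : ℝ) ^ (k + 1))⁻¹ := by positivity
  have h3 := mul_le_mul_of_nonneg_left h hpos.le
  refine h3.trans (le_of_eq ?_)
  have e1 : ((2 : ℝ) ^ k)⁻¹ = ((2 : ℝ) ^ (k + 1))⁻¹ * 2 := by
    rw [pow_succ, mul_inv]
    ring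
  simp only [cellPot, xor_bit', ← Finset.mul_sum, e1]
  ring

theorem cellPot_nonneg
    (hnn : ∀ (ι : Type) [Fintype ι] [DecidableEq ι] (R : Matrix ι ι ℝ), R.PosSemidef → 0 ≤ psi R)
    (k m n : ℕ) : 0 ≤ cellPot f₀ f₁ f₂ k m n := by
  have hp : ∀ (A B : Matrix (Fin (2 ^ k)) (Fin (2 ^ k)) ℝ), 0 ≤ pot A B := by
    intro A B
    refine hnn _ _ ?_
    have h1 : (Aᵀ * A).PosSemidef := by
      have := Matrix.posSemidef_conjTranspose_mul_self A
      rwa [Matrix.conjTranspose_eq_transpose_of_trivial] at this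
    have h2 : (B * Bᵀ).PosSemidef := by
      have := Matrix.posSemidef_self_mul_conjTranspose B
      rwa [Matrix.conjTranspose_eq_transpose_of_trivial] at this
    exact h1.add h2
  unfold cellPot pot3
  have := hp (cm f₀ k m n) (cm f₁ k n (m ^^^ n))
  have := hp (cm f₁ k n (m ^^^ n)) (cm f₂ k (m ^^^ n) m)
  have := hp (cm f₂ k (m ^^^ n) m) (cm f₀ k m n)
  positivity

theorem cellPot_zero
    (hone : ∀ (ι : Type) [Fintype ι] [DecidableEq ι] [Unique ι] (A B C : Matrix ι ι ℝ),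
      pot3 A B C ≤ 16 * (|A default default| ^ 3 + |B default default| ^ 3
        + |C default default| ^ 3))
    (m n : ℕ) : cellPot f₀ f₁ f₂ 0 m n ≤
      16 * (|f₀ m n| ^ 3 + |f₁ n (m ^^^ n)| ^ 3 + |f₂ (m ^^^ n) m| ^ 3) := by
  letI : Unique (Fin (2 ^ 0)) := inferInstanceAs (Unique (Fin 1))
  have h := hone (Fin (2 ^ 0)) (cm f₀ 0 m n) (cm f₁ 0 n (m ^^^ n)) (cm f₂ 0 (m ^^^ n) m)
  have hd : ((default : Fin (2 ^ 0)) : ℕ) = 0 := by
    simp
  simp only [cm, Matrix.of_apply, hd, pow_zero, one_mul, add_zero] at h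
  simpa [cellPot, cm] using h

/-- Module B, from the one-step inequality and the properties of the potential. -/
theorem discrete_bound_of (hstep : OneStep)
    (hnn : ∀ (ι : Type) [Fintype ι] [DecidableEq ι] (R : Matrix ι ι ℝ), R.PosSemidef → 0 ≤ psi R)
    (hre : ∀ (ι κ : Type) [Fintype ι] [DecidableEq ι] [Fintype κ] [DecidableEq κ] (e : ι ≃ κ)
      (R : Matrix ι ι ℝ), psi (R.submatrix e.symm e.symm) = psi R)
    (hone : ∀ (ι : Type) [Fintype ι] [DecidableEq ι] [Unique ι] (A B C : Matrix ι ι ℝ),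
      pot3 A B C ≤ 16 * (|A default default| ^ 3 + |B default default| ^ 3
        + |C default default| ^ 3))
    (K : ℕ) :
    ∑ k ∈ Finset.range K, ∑ m ∈ Finset.range (2 ^ (K - k - 1)),
      ∑ n ∈ Finset.range (2 ^ (K - k - 1)), ((2 : ℝ) ^ (k + 1))⁻¹ * |Dd f₀ f₁ f₂ k m n|
    ≤ 1920 * ∑ x ∈ Finset.range (2 ^ K), ∑ y ∈ Finset.range (2 ^ K),
        (|f₀ x y| ^ 3 + |f₁ x y| ^ 3 + |f₂ x y| ^ 3) := by
  set T : ℕ → ℝ := fun k => ∑ m ∈ Finset.range (2 ^ (K - k)), ∑ n ∈ Finset.range (2 ^ (K - k)),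
    cellPot f₀ f₁ f₂ k m n with hT
  have hk : ∀ k ∈ Finset.range K, ∑ m ∈ Finset.range (2 ^ (K - k - 1)),
      ∑ n ∈ Finset.range (2 ^ (K - k - 1)), ((2 : ℝ) ^ (k + 1))⁻¹ * |Dd f₀ f₁ f₂ k m n|
      ≤ 120 * (T k - T (k + 1)) := by
    intro k hk
    have hkK : k < K := Finset.mem_range.1 hk
    have e2 : (2 : ℕ) ^ (K - k) = 2 * 2 ^ (K - k - 1) := by
      rw [← pow_succ']
      congr 1
      omega
    have eT : T k = ∑ m ∈ Finset.range (2 ^ (K - k - 1)), ∑ n ∈ Finset.range (2 ^ (K - k - 1)),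
        ∑ a : Bool, ∑ b : Bool, cellPot f₀ f₁ f₂ k (Nat.bit a m) (Nat.bit b n) := by
      simp only [hT]
      rw [e2, sum_range_bit]
      refine Finset.sum_congr rfl fun m _ => ?_
      simp only [sum_range_bit]
      rw [Finset.sum_comm]
    have eT1 : T (k + 1) = ∑ m ∈ Finset.range (2 ^ (K - k - 1)),
        ∑ n ∈ Finset.range (2 ^ (K - k - 1)), cellPot f₀ f₁ f₂ (k + 1) m n := by
      simp only [hT]
      rw [show K - (k + 1) = K - k - 1 by omega]
    rw [eT, eT1, ← Finset.sum_sub_distrib, Finset.mul_sum]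
    refine Finset.sum_le_sum fun m _ => ?_
    rw [← Finset.sum_sub_distrib, Finset.mul_sum]
    refine Finset.sum_le_sum fun n _ => ?_
    exact cell_step f₀ f₁ f₂ hstep hre k m n
  refine (Finset.sum_le_sum hk).trans ?_
  rw [← Finset.mul_sum, Finset.sum_range_sub']
  have hTK : 0 ≤ T K := by
    simp only [hT]
    exact Finset.sum_nonneg fun m _ => Finset.sum_nonneg fun n _ =>
      cellPot_nonneg f₀ f₁ f₂ hnn K m n
  have hT0 : T 0 ≤ 16 * ∑ x ∈ Finset.range (2 ^ K), ∑ y ∈ Finset.range (2 ^ K),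
        (|f₀ x y| ^ 3 + |f₁ x y| ^ 3 + |f₂ x y| ^ 3) := by
    have h1 : T 0 ≤ ∑ m ∈ Finset.range (2 ^ K), ∑ n ∈ Finset.range (2 ^ K),
        16 * (|f₀ m n| ^ 3 + |f₁ n (m ^^^ n)| ^ 3 + |f₂ (m ^^^ n) m| ^ 3) := by
      simp only [hT, Nat.sub_zero]
      exact Finset.sum_le_sum fun m _ => Finset.sum_le_sum fun n _ =>
        cellPot_zero f₀ f₁ f₂ hone m n
    refine h1.trans (le_of_eq ?_)
    simp only [← Finset.mul_sum, Finset.sum_add_distrib]
    congr 2
    · congr 1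
      rw [Finset.sum_comm]
      refine Finset.sum_congr rfl fun n hn => ?_
      exact sum_range_xor K n (Finset.mem_range.1 hn) (fun z => |f₁ n z| ^ 3)
    · have e3 : ∀ m ∈ Finset.range (2 ^ K), ∑ n ∈ Finset.range (2 ^ K), |f₂ (m ^^^ n) m| ^ 3
          = ∑ n ∈ Finset.range (2 ^ K), |f₂ n m| ^ 3 := by
        intro m hm
        have := sum_range_xor K m (Finset.mem_range.1 hm) (fun z => |f₂ z m| ^ 3)
        simpa only [Nat.xor_comm m] using this
      rw [Finset.sum_congr rfl e3, Finset.sum_comm]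
  nlinarith [hT0, hTK]

end

end Vale.Agent.P075
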