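import Vale.Agent.Lib.P075.Defs

/-!
# P075: from the discrete bound to the form (C3, C4)
-/

namespace Vale.Agent.P075

open Matrix MeasureTheory

/-- Statement of the discrete bound. -/
def DiscreteBound : Prop := ∃ C : ℝ, 0 ≤ C ∧ ∀ (f₀ f₁ f₂ : ℕ → ℕ → ℝ) (K : ℕ),
    ∑ k ∈ Finset.range K, ∑ m ∈ Finset.range (2 ^ (K - k - 1)),
      ∑ n ∈ Finset.range (2 ^ (K - k - 1)), ((2 : ℝ) ^ (k + 1))⁻¹ * |Dd f₀ f₁ f₂ k m n|
    ≤ C * ∑ x ∈ Finset.range (2 ^ K), ∑ y ∈ Finset.range (2 ^ K),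
        (|f₀ x y| ^ 3 + |f₁ x y| ^ 3 + |f₂ x y| ^ 3)

/-- Statement of the bound for the averages. -/
def AvBound : Prop := ∀ (N : ℕ) (F : ℝ × ℝ → ℝ) (_hF : Measurable F) (M : ℝ)
    (_hM : ∀ p, |F p| ≤ M) (_hS : HasCompactSupport F) (T : ℕ),
    ((4 : ℝ) ^ N)⁻¹ * ∑ x ∈ Finset.range T, ∑ y ∈ Finset.range T, |av N F x y| ^ 3
      ≤ ∫ p in quad, |F p| ^ 3

/-- Statement of the convergence of the discrete forms. -/
def LITendsto : Prop := ∀ (F₀ F₁ F₂ : ℝ × ℝ → ℝ) (_h₀ : Measurable F₀) (_h₁ : Measurable F₁)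
    (_h₂ : Measurable F₂) (M : ℝ) (_b₀ : ∀ p, |F₀ p| ≤ M) (_b₁ : ∀ p, |F₁ p| ≤ M)
    (_b₂ : ∀ p, |F₂ p| ≤ M) (k : ℤ) (m n : ℕ),
    Filter.Tendsto (fun N : ℕ => ((4 : ℝ) ^ N)⁻¹ * (((2 : ℝ) ^ ((k + N - 1).toNat + 1))⁻¹ *
        Dd (av N F₀) (av N F₁) (av N F₂) (k + N - 1).toNat m n))
      Filter.atTop (nhds (LI F₀ F₁ F₂ k (m, n, m ^^^ n)))

/-- compactly supported functions vanish when one coordinate is large -/
theorem exists_pow_of_compact {F : ℝ × ℝ → ℝ} (h : HasCompactSupport F) :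
    ∃ M : ℕ, ∀ M' : ℕ, M ≤ M' → ∀ p : ℝ × ℝ, F p ≠ 0 → p.1 < 2 ^ M' ∧ p.2 < 2 ^ M' := by
  obtain ⟨R, hR⟩ := h.isBounded.exists_norm_le
  obtain ⟨M, hM⟩ := pow_unbounded_of_one_lt R (one_lt_two)
  refine ⟨M, fun M' hMM p hp => ?_⟩
  have h1 := hR p (subset_tsupport _ hp)
  have h2 : (2 : ℝ) ^ M ≤ 2 ^ M' := pow_le_pow_right₀ one_le_two hMM
  rw [Prod.norm_def] at h1
  have h3 : p.1 ≤ R := (le_abs_self _).trans ((le_max_left _ _).trans h1)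
  have h4 : p.2 ≤ R := (le_abs_self _).trans ((le_max_right _ _).trans h1)
  exact ⟨by linarith, by linarith⟩

/-- nonvanishing of the form of one cell -/
theorem LI_ne_zero {F₀ F₁ F₂ : ℝ × ℝ → ℝ} {M : ℕ}
    (h₀ : ∀ p : ℝ × ℝ, F₀ p ≠ 0 → p.1 < 2 ^ M ∧ p.2 < 2 ^ M)
    (h₁ : ∀ p : ℝ × ℝ, F₁ p ≠ 0 → p.1 < 2 ^ M ∧ p.2 < 2 ^ M)
    {k : ℤ} (hk : k ≤ M) {n : ℕ × ℕ × ℕ} (h : LI F₀ F₁ F₂ k n ≠ 0) :
    n.1 < 2 ^ ((M - k : ℤ).toNat) ∧ n.2.1 < 2 ^ ((M - k : ℤ).toNat) ∧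
      n.2.2 < 2 ^ ((M - k : ℤ).toNat) := by
  have hex : ∃ x ∈ dyad k n.1 ×ˢ dyad k n.2.1 ×ˢ dyad k n.2.2, F₀ (x.1, x.2.1) *
      F₁ (x.2.1, x.2.2) * F₂ (x.2.2, x.1) *
      (haar k n.1 x.1 * haar k n.2.1 x.2.1 * haar k n.2.2 x.2.2) ≠ 0 := by
    by_contra hne
    push Not at hne
    apply h
    unfold LI
    have hm : MeasurableSet (dyad k n.1 ×ˢ dyad k n.2.1 ×ˢ dyad k n.2.2) :=
      measurableSet_Ico.prod (measurableSet_Ico.prod measurableSet_Ico)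
    rw [setIntegral_congr_fun hm (g := fun _ => (0 : ℝ)) (fun x hx => hne x hx)]
    simp
  obtain ⟨x, ⟨hx0, hx1, hx2⟩, hx⟩ := hex
  have hF0 : F₀ (x.1, x.2.1) ≠ 0 := by
    intro h0
    rw [h0] at hx
    simp at hx
  have hF1 : F₁ (x.2.1, x.2.2) ≠ 0 := by
    intro h0
    rw [h0] at hx
    simp at hx
  have g0 := h₀ _ hF0
  have g1 := h₁ _ hF1
  have key : ∀ (a : ℕ) (y : ℝ), y ∈ dyad k a → y < 2 ^ M → a < 2 ^ ((M - k : ℤ).toNat) := by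
    intro a y hy hyM
    have h1 : (2 : ℝ) ^ k * a < 2 ^ M := lt_of_le_of_lt hy.1 hyM
    have h2 : (2 : ℝ) ^ (M : ℕ) = 2 ^ k * 2 ^ ((M - k : ℤ).toNat) := by
      rw [← zpow_natCast, ← zpow_natCast, ← zpow_add₀ (by norm_num : (2 : ℝ) ≠ 0)]
      congr 1
      omega
    rw [h2] at h1
    have h3 := lt_of_mul_lt_mul_left h1 (by positivity)
    exact_mod_cast h3
  exact ⟨key _ _ hx0 g0.1, key _ _ hx1 g0.2, key _ _ hx2 g1.2⟩

/-- the indices of the cells of one scale, as an injective image of pairs -/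
def cellOf (p : ℕ × ℕ) : {n : ℕ × ℕ × ℕ // n.1 ^^^ n.2.1 ^^^ n.2.2 = 0} :=
  ⟨(p.1, p.2, p.1 ^^^ p.2), by simp⟩

theorem cellOf_injective : Function.Injective cellOf := by
  rintro ⟨a, b⟩ ⟨c, d⟩ h
  have h1 := congrArg (fun q => q.1.1) h
  have h2 := congrArg (fun q => q.1.2.1) h
  simp only [cellOf] at h1 h2
  rw [h1, h2]

theorem cellOf_surjective (q : {n : ℕ × ℕ × ℕ // n.1 ^^^ n.2.1 ^^^ n.2.2 = 0}) :
    cellOf (q.1.1, q.1.2.1) = q := by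
  obtain ⟨⟨a, b, c⟩, h⟩ := q
  have h1 : a ^^^ b = c := by
    have h2 : a ^^^ b ^^^ c = 0 := h
    exact Nat.xor_eq_zero_iff.1 h2
  subst h1
  rfl

/-- C3. Final bound, additive form. -/
theorem final_additive (hDB : DiscreteBound) (hAB : AvBound) (hLT : LITendsto) :
    ∃ C : ℝ, 0 ≤ C ∧ ∀ (S : Finset ℤ) (F₀ F₁ F₂ : ℝ × ℝ → ℝ),
    Measurable F₀ → Measurable F₁ → Measurable F₂ →
    (∃ M : ℝ, ∀ p, |F₀ p| ≤ M ∧ |F₁ p| ≤ M ∧ |F₂ p| ≤ M) →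
    HasCompactSupport F₀ → HasCompactSupport F₁ → HasCompactSupport F₂ →
    (∀ k ∈ S, (Function.support fun n : {n : ℕ × ℕ × ℕ // n.1 ^^^ n.2.1 ^^^ n.2.2 = 0} =>
      LI F₀ F₁ F₂ k n.1).Finite) ∧
    ∑ k ∈ S, ∑' n : {n : ℕ × ℕ × ℕ // n.1 ^^^ n.2.1 ^^^ n.2.2 = 0}, |LI F₀ F₁ F₂ k n.1|
      ≤ C * ((∫ p in quad, |F₀ p| ^ 3) + (∫ p in quad, |F₁ p| ^ 3)
        + ∫ p in quad, |F₂ p| ^ 3) := by
  obtain ⟨C, hC, hD⟩ := hDB
  refine ⟨C, hC, ?_⟩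
  intro S F₀ F₁ F₂ m₀ m₁ m₂ hM s₀ s₁ s₂
  obtain ⟨B, hB⟩ := hM
  obtain ⟨A₀, hA₀⟩ := exists_pow_of_compact s₀
  obtain ⟨A₁, hA₁⟩ := exists_pow_of_compact s₁
  -- the size of the region
  obtain ⟨A₂, hA₂⟩ : ∃ A : ℕ, ∀ k ∈ S, k ≤ A ∧ -k ≤ A := by
    refine ⟨∑ k ∈ S, k.natAbs, fun k hk => ?_⟩
    have h1 : k.natAbs ≤ ∑ k ∈ S, k.natAbs :=
      Finset.single_le_sum (f := fun k : ℤ => k.natAbs) (fun _ _ => Nat.zero_le _) hk
    omega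
  set M : ℕ := max (max A₀ A₁) A₂ with hMdef
  have g₀ := hA₀ M (by omega)
  have g₁ := hA₁ M (by omega)
  have hkM : ∀ k ∈ S, k ≤ M := fun k hk => by have := (hA₂ k hk).1; omega
  -- finiteness and evaluation of the sums
  have hsum : ∀ k ∈ S, (∀ q : {n : ℕ × ℕ × ℕ // n.1 ^^^ n.2.1 ^^^ n.2.2 = 0},
      q ∉ ((Finset.range (2 ^ ((M - k : ℤ).toNat)) ×ˢ
        Finset.range (2 ^ ((M - k : ℤ).toNat))).map ⟨cellOf, cellOf_injective⟩) →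
      LI F₀ F₁ F₂ k q.1 = 0) := by
    intro k hk q hq
    by_contra hne
    have h1 := LI_ne_zero g₀ g₁ (hkM k hk) hne
    apply hq
    rw [Finset.mem_map]
    refine ⟨(q.1.1, q.1.2.1), ?_, cellOf_surjective q⟩
    simp only [Finset.mem_product, Finset.mem_range]
    exact ⟨h1.1, h1.2.1⟩
  refine ⟨fun k hk => ?_, ?_⟩
  · refine Set.Finite.subset (Finset.finite_toSet ((Finset.range (2 ^ ((M - k : ℤ).toNat)) ×ˢ
        Finset.range (2 ^ ((M - k : ℤ).toNat))).map ⟨cellOf, cellOf_injective⟩)) ?_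
    intro q hq
    by_contra hne
    exact hq (hsum k hk q hne)
  · have hval : ∀ k ∈ S, ∑' n : {n : ℕ × ℕ × ℕ // n.1 ^^^ n.2.1 ^^^ n.2.2 = 0},
        |LI F₀ F₁ F₂ k n.1| = ∑ m ∈ Finset.range (2 ^ ((M - k : ℤ).toNat)),
          ∑ n ∈ Finset.range (2 ^ ((M - k : ℤ).toNat)), |LI F₀ F₁ F₂ k (m, n, m ^^^ n)| := by
      intro k hk
      rw [tsum_eq_sum (s := (Finset.range (2 ^ ((M - k : ℤ).toNat)) ×ˢ
        Finset.range (2 ^ ((M - k : ℤ).toNat))).map ⟨cellOf, cellOf_injective⟩)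
        (fun q hq => by rw [hsum k hk q hq, abs_zero]), Finset.sum_map, Finset.sum_product]
      rfl
    rw [Finset.sum_congr rfl hval]
    -- limit of the discrete forms
    have hlim : Filter.Tendsto (fun N : ℕ => ∑ k ∈ S,
        ∑ m ∈ Finset.range (2 ^ ((M - k : ℤ).toNat)),
          ∑ n ∈ Finset.range (2 ^ ((M - k : ℤ).toNat)), |((4 : ℝ) ^ N)⁻¹ *
            (((2 : ℝ) ^ ((k + N - 1).toNat + 1))⁻¹ *
            Dd (av N F₀) (av N F₁) (av N F₂) (k + N - 1).toNat m n)|) Filter.atTop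
        (nhds (∑ k ∈ S, ∑ m ∈ Finset.range (2 ^ ((M - k : ℤ).toNat)),
          ∑ n ∈ Finset.range (2 ^ ((M - k : ℤ).toNat)), |LI F₀ F₁ F₂ k (m, n, m ^^^ n)|)) := by
      refine tendsto_finsetSum _ fun k _ => tendsto_finsetSum _ fun m _ =>
        tendsto_finsetSum _ fun n _ => ?_
      exact (hLT F₀ F₁ F₂ m₀ m₁ m₂ B (fun p => (hB p).1) (fun p => (hB p).2.1)
        (fun p => (hB p).2.2) k m n).abs
    refine le_of_tendsto hlim ?_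
    filter_upwards [Filter.eventually_ge_atTop (A₂ + 1)] with N hN
    have h4 : (0 : ℝ) < ((4 : ℝ) ^ N)⁻¹ := by positivity
    -- the sum over `S` is part of the full discrete sum
    set K : ℕ := N + M with hK
    have hinj : Set.InjOn (fun k : ℤ => (k + N - 1).toNat) (S : Set ℤ) := by
      intro k hk l hl hkl
      have h1 := (hA₂ k hk).2
      have h2 := (hA₂ l hl).2
      simp only at hkl
      omega
    set g : ℕ → ℝ := fun j => ∑ m ∈ Finset.range (2 ^ (K - j - 1)),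
      ∑ n ∈ Finset.range (2 ^ (K - j - 1)), ((2 : ℝ) ^ (j + 1))⁻¹ *
        |Dd (av N F₀) (av N F₁) (av N F₂) j m n| with hg
    have hterm : ∀ k ∈ S, ∑ m ∈ Finset.range (2 ^ ((M - k : ℤ).toNat)),
          ∑ n ∈ Finset.range (2 ^ ((M - k : ℤ).toNat)), |((4 : ℝ) ^ N)⁻¹ *
            (((2 : ℝ) ^ ((k + N - 1).toNat + 1))⁻¹ *
            Dd (av N F₀) (av N F₁) (av N F₂) (k + N - 1).toNat m n)| =
        ((4 : ℝ) ^ N)⁻¹ * g ((k + N - 1).toNat) := by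
      intro k hk
      have h1 := hA₂ k hk
      have h2 := hkM k hk
      have h3 : K - (k + N - 1).toNat - 1 = (M - k : ℤ).toNat := by omega
      simp only [hg]
      rw [h3, Finset.mul_sum]
      refine Finset.sum_congr rfl fun m _ => ?_
      rw [Finset.mul_sum]
      refine Finset.sum_congr rfl fun n _ => ?_
      rw [abs_mul, abs_mul, abs_of_pos h4, abs_of_pos (by positivity :
        (0 : ℝ) < ((2 : ℝ) ^ ((k + N - 1).toNat + 1))⁻¹)]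
    rw [Finset.sum_congr rfl hterm, ← Finset.mul_sum]
    have hle : ∑ k ∈ S, g ((k + N - 1).toNat) ≤ ∑ j ∈ Finset.range K, g j := by
      rw [← Finset.sum_image (f := g) (g := fun k : ℤ => (k + N - 1).toNat) hinj]
      refine Finset.sum_le_sum_of_subset_of_nonneg ?_ fun j _ _ => ?_
      · intro j hj
        rw [Finset.mem_image] at hj
        obtain ⟨k, hk, rfl⟩ := hj
        have h1 := hA₂ k hk
        have h2 := hkM k hk
        rw [Finset.mem_range]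
        omega
      · simp only [hg]
        exact Finset.sum_nonneg fun m _ => Finset.sum_nonneg fun n _ => by positivity
    have hfull := hD (av N F₀) (av N F₁) (av N F₂) K
    have e₀ := hAB N F₀ m₀ B (fun p => (hB p).1) s₀ (2 ^ K)
    have e₁ := hAB N F₁ m₁ B (fun p => (hB p).2.1) s₁ (2 ^ K)
    have e₂ := hAB N F₂ m₂ B (fun p => (hB p).2.2) s₂ (2 ^ K)
    calc ((4 : ℝ) ^ N)⁻¹ * ∑ k ∈ S, g ((k + N - 1).toNat)
        ≤ ((4 : ℝ) ^ N)⁻¹ * (C * ∑ x ∈ Finset.range (2 ^ K), ∑ y ∈ Finset.range (2 ^ K),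
          (|av N F₀ x y| ^ 3 + |av N F₁ x y| ^ 3 + |av N F₂ x y| ^ 3)) :=
          mul_le_mul_of_nonneg_left (hle.trans hfull) h4.le
      _ = C * (((4 : ℝ) ^ N)⁻¹ * ∑ x ∈ Finset.range (2 ^ K), ∑ y ∈ Finset.range (2 ^ K),
            |av N F₀ x y| ^ 3 + ((4 : ℝ) ^ N)⁻¹ * ∑ x ∈ Finset.range (2 ^ K),
            ∑ y ∈ Finset.range (2 ^ K), |av N F₁ x y| ^ 3 +
            ((4 : ℝ) ^ N)⁻¹ * ∑ x ∈ Finset.range (2 ^ K),
            ∑ y ∈ Finset.range (2 ^ K), |av N F₂ x y| ^ 3) := by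
          simp only [Finset.sum_add_distrib]
          ring
      _ ≤ C * ((∫ p in quad, |F₀ p| ^ 3) + (∫ p in quad, |F₁ p| ^ 3)
          + ∫ p in quad, |F₂ p| ^ 3) := by
          refine mul_le_mul_of_nonneg_left ?_ hC
          linarith

/-- homogeneity of the form -/
theorem LI_smul (F₀ F₁ F₂ : ℝ × ℝ → ℝ) (a b c : ℝ) (k : ℤ) (n : ℕ × ℕ × ℕ) :
    LI (fun p => a * F₀ p) (fun p => b * F₁ p) (fun p => c * F₂ p) k n =
      a * b * c * LI F₀ F₁ F₂ k n := by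
  unfold LI
  rw [mul_left_comm]
  congr 1
  rw [← integral_const_mul]
  refine integral_congr_ae (Filter.Eventually.of_forall fun x => ?_)
  simp only
  ring

/-- C4. Final bound, multiplicative form (by homogeneity). -/
theorem final_mult (hDB : DiscreteBound) (hAB : AvBound) (hLT : LITendsto) :
    ∃ C : ℝ, 0 ≤ C ∧ ∀ (S : Finset ℤ) (F₀ F₁ F₂ : ℝ × ℝ → ℝ),
    Measurable F₀ → Measurable F₁ → Measurable F₂ →
    (∃ M : ℝ, ∀ p, |F₀ p| ≤ M ∧ |F₁ p| ≤ M ∧ |F₂ p| ≤ M) →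
    HasCompactSupport F₀ → HasCompactSupport F₁ → HasCompactSupport F₂ →
    ∑ k ∈ S, ∑' n : {n : ℕ × ℕ × ℕ // n.1 ^^^ n.2.1 ^^^ n.2.2 = 0}, |LI F₀ F₁ F₂ k n.1|
      ≤ C * ((∫ p in quad, |F₀ p| ^ 3) ^ ((1 : ℝ) / 3) * (∫ p in quad, |F₁ p| ^ 3) ^ ((1 : ℝ) / 3)
        * (∫ p in quad, |F₂ p| ^ 3) ^ ((1 : ℝ) / 3)) := by
  obtain ⟨C, hC, hA⟩ := final_additive hDB hAB hLT
  refine ⟨3 * C, by positivity, ?_⟩
  intro S F₀ F₁ F₂ m₀ m₁ m₂ hM s₀ s₁ s₂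
  obtain ⟨B, hB⟩ := hM
  set W : ℝ := ∑ k ∈ S, ∑' n : {n : ℕ × ℕ × ℕ // n.1 ^^^ n.2.1 ^^^ n.2.2 = 0},
    |LI F₀ F₁ F₂ k n.1| with hW
  set a₀ : ℝ := ∫ p in quad, |F₀ p| ^ 3 with ha₀
  set a₁ : ℝ := ∫ p in quad, |F₁ p| ^ 3 with ha₁
  set a₂ : ℝ := ∫ p in quad, |F₂ p| ^ 3 with ha₂
  have n₀ : 0 ≤ a₀ := integral_nonneg fun p => by positivity
  have n₁ : 0 ≤ a₁ := integral_nonneg fun p => by positivity
  have n₂ : 0 ≤ a₂ := integral_nonneg fun p => by positivity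
  set b₀ : ℝ := a₀ ^ ((1 : ℝ) / 3) with hb₀
  set b₁ : ℝ := a₁ ^ ((1 : ℝ) / 3) with hb₁
  set b₂ : ℝ := a₂ ^ ((1 : ℝ) / 3) with hb₂
  have p₀ : 0 ≤ b₀ := Real.rpow_nonneg n₀ _
  have p₁ : 0 ≤ b₁ := Real.rpow_nonneg n₁ _
  have p₂ : 0 ≤ b₂ := Real.rpow_nonneg n₂ _
  have cube : ∀ a : ℝ, 0 ≤ a → (a ^ ((1 : ℝ) / 3)) ^ 3 = a := by
    intro a ha
    rw [← Real.rpow_natCast, ← Real.rpow_mul ha]
    norm_num
  -- scaling
  have hscale : ∀ s t u : ℝ, 0 < s → 0 < t → 0 < u →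
      s * t * u * W ≤ C * (s ^ 3 * a₀ + t ^ 3 * a₁ + u ^ 3 * a₂) := by
    intro s t u hs ht hu
    have h1 := (hA S (fun p => s * F₀ p) (fun p => t * F₁ p) (fun p => u * F₂ p)
      (m₀.const_mul s) (m₁.const_mul t) (m₂.const_mul u)
      ⟨(s + t + u) * B, fun p => ?_⟩ (s₀.mul_left) (s₁.mul_left) (s₂.mul_left)).2
    · simp only [LI_smul, abs_mul, abs_of_pos hs, abs_of_pos ht, abs_of_pos hu, mul_pow,
        tsum_mul_left, integral_const_mul, ← Finset.mul_sum] at h1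
      exact h1
    · have h2 := hB p
      have hB0 : 0 ≤ B := (abs_nonneg _).trans h2.1
      rw [abs_mul, abs_mul, abs_mul, abs_of_pos hs, abs_of_pos ht, abs_of_pos hu]
      refine ⟨?_, ?_, ?_⟩
      · exact mul_le_mul (by linarith) h2.1 (abs_nonneg _) (by positivity)
      · exact mul_le_mul (by linarith) h2.2.1 (abs_nonneg _) (by positivity)
      · exact mul_le_mul (by linarith) h2.2.2 (abs_nonneg _) (by positivity)
  have hδ : ∀ δ : ℝ, 0 < δ → W ≤ 3 * C * ((b₀ + δ) * (b₁ + δ) * (b₂ + δ)) := by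
    intro δ hδ
    have q₀ : 0 < b₀ + δ := by positivity
    have q₁ : 0 < b₁ + δ := by positivity
    have q₂ : 0 < b₂ + δ := by positivity
    have h1 := hscale (b₀ + δ)⁻¹ (b₁ + δ)⁻¹ (b₂ + δ)⁻¹ (by positivity) (by positivity)
      (by positivity)
    have hle : ∀ a b : ℝ, 0 ≤ a → b = a ^ ((1 : ℝ) / 3) → (b + δ)⁻¹ ^ 3 * a ≤ 1 := by
      intro a b ha hb
      have h2 : 0 ≤ b := hb ▸ Real.rpow_nonneg ha _
      have h3 : a = b ^ 3 := by rw [hb, cube a ha]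
      have h4 : 0 < b + δ := by positivity
      rw [h3, ← mul_pow]
      refine pow_le_one₀ (by positivity) ?_
      rw [inv_mul_le_one₀ h4]
      linarith
    have h2 : C * ((b₀ + δ)⁻¹ ^ 3 * a₀ + (b₁ + δ)⁻¹ ^ 3 * a₁ + (b₂ + δ)⁻¹ ^ 3 * a₂) ≤ C * 3 := by
      refine mul_le_mul_of_nonneg_left ?_ hC
      have i₀ := hle a₀ b₀ n₀ rfl
      have i₁ := hle a₁ b₁ n₁ rfl
      have i₂ := hle a₂ b₂ n₂ rfl
      linarith
    have h3 := h1.trans h2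
    have h4 : 0 < (b₀ + δ) * (b₁ + δ) * (b₂ + δ) := by positivity
    have h5 := mul_le_mul_of_nonneg_left h3 h4.le
    calc W = (b₀ + δ) * (b₁ + δ) * (b₂ + δ) *
        ((b₀ + δ)⁻¹ * (b₁ + δ)⁻¹ * (b₂ + δ)⁻¹ * W) := by field_simp
      _ ≤ _ := h5
      _ = _ := by ring
  have hlim : Filter.Tendsto (fun δ : ℝ => 3 * C * ((b₀ + δ) * (b₁ + δ) * (b₂ + δ)))
      (nhdsWithin 0 (Set.Ioi 0)) (nhds (3 * C * (b₀ * b₁ * b₂))) := by
    have hcont : Continuous (fun δ : ℝ => 3 * C * ((b₀ + δ) * (b₁ + δ) * (b₂ + δ))) := by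
      fun_prop
    have h1 := hcont.tendsto 0
    simp only [add_zero] at h1
    exact h1.mono_left nhdsWithin_le_nhds
  refine ge_of_tendsto hlim ?_
  filter_upwards [self_mem_nhdsWithin] with δ hδ'
  exact hδ δ hδ'

end Vale.Agent.P075
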