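import Vale.Agent.Lib.P075.Resolvent

/-! The gap of the potential. -/

namespace Vale.Agent.P075

open Matrix

section
variable {ι : Type*} [Fintype ι] [DecidableEq ι]

theorem smul_one_psd {s : ℝ} (hs : 0 ≤ s) : (s • (1 : Matrix ι ι ℝ)).PosSemidef :=
  Matrix.PosSemidef.smul Matrix.PosSemidef.one hs

/-- mixed bound for one eigenvector -/
theorem eig_bound {R R' : Matrix ι ι ℝ} (hR' : R'.PosSemidef) {U : Matrix ι ι ℝ} {r : ι → ℝ}
    (hU1 : Uᵀ * U = 1) (hU2 : U * Uᵀ = 1) (hr : ∀ i, 0 ≤ r i) (hR : R = U * diagonal r * Uᵀ)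
    {s : ℝ} (hs : 0 < s) (i : ι) :
    r i * (3 * s / ((r i + s) * (r i + 4 * s))) *
        ((fun k => U k i) ⬝ᵥ Lf s R' *ᵥ (fun k => U k i)) ≤
      3 * (r i * ((fun k => U k i) ⬝ᵥ ((R + s • (1 : Matrix ι ι ℝ))⁻¹
        - (R + R' + s • (1 : Matrix ι ι ℝ))⁻¹) *ᵥ (fun k => U k i))) := by
  set e : ι → ℝ := fun k => U k i with he
  have hRp : R.PosSemidef := by
    rw [hR]
    have := (Matrix.PosSemidef.diagonal (d := r) hr).mul_mul_conjTranspose_same U
    rwa [Matrix.conjTranspose_eq_transpose_of_trivial] at this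
  have hN : (R + R' + s • (1 : Matrix ι ι ℝ)).PosDef := posDef_add_smul (hRp.add hR') hs
  have hP : (R' + s • (1 : Matrix ι ι ℝ)).PosDef := posDef_add_smul hR' hs
  have hee : e ⬝ᵥ e = 1 := by
    have := congrFun (congrFun hU1 i) i
    rw [Matrix.mul_apply, Matrix.one_apply_eq] at this
    simpa [he, dotProduct] using this
  -- resolvent of `R` on `e`
  have hUe : Uᵀ *ᵥ e = Pi.single i 1 := by
    funext j
    have := congrFun (congrFun hU1 j) i
    rw [Matrix.mul_apply] at this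
    rw [Matrix.mulVec, dotProduct]
    simp only [he]
    rw [this, Matrix.one_apply]
    by_cases h : j = i
    · subst h; simp
    · simp [h]
  have hRe : e ⬝ᵥ (R + s • (1 : Matrix ι ι ℝ))⁻¹ *ᵥ e = (r i + s)⁻¹ := by
    rw [hR, inv_spectral hU1 hU2 hr hs, Matrix.mul_assoc, ← Matrix.mulVec_mulVec,
      ← Matrix.mulVec_mulVec, hUe, Matrix.dotProduct_mulVec, ← Matrix.mulVec_transpose, hUe]
    simp
  -- the number t
  set F : ℝ := e ⬝ᵥ (R' + s • (1 : Matrix ι ι ℝ))⁻¹ *ᵥ e with hF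
  have hF0 : 0 ≤ F := quad_nonneg hP.inv.posSemidef e
  have hFs : s * F ≤ 1 := by
    have h1 := inv_anti hP (Matrix.PosDef.smul (Matrix.PosDef.one (n := ι) (R := ℝ)) hs)
      (by simpa using hR') e
    have h2 : (s • (1 : Matrix ι ι ℝ))⁻¹ = s⁻¹ • (1 : Matrix ι ι ℝ) := by
      apply Matrix.inv_eq_right_inv
      rw [Matrix.smul_mul, Matrix.mul_smul, Matrix.mul_one, smul_smul, mul_inv_cancel₀ hs.ne',
        one_smul]
    rw [h2, Matrix.smul_mulVec, Matrix.one_mulVec, dotProduct_smul, hee, smul_eq_mul,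
      mul_one] at h1
    have h3 : s * F ≤ s * s⁻¹ := mul_le_mul_of_nonneg_left h1 hs.le
    rwa [mul_inv_cancel₀ hs.ne'] at h3
  have hℓ : e ⬝ᵥ Lf s R' *ᵥ e = 1 - s * F := by
    unfold Lf
    rw [Matrix.sub_mulVec, Matrix.one_mulVec, dotProduct_sub, hee, Matrix.smul_mulVec,
      dotProduct_smul, smul_eq_mul]
  set v : ι → ℝ := (R + R' + s • (1 : Matrix ι ι ℝ))⁻¹ *ᵥ e with hv
  set t : ℝ := e ⬝ᵥ v with ht
  have hNv : (R + R' + s • (1 : Matrix ι ι ℝ)) *ᵥ v = e := by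
    rw [hv, Matrix.mulVec_mulVec, Matrix.mul_nonsing_inv _ (det_unit hN), Matrix.one_mulVec]
  have ht1 : t = v ⬝ᵥ R *ᵥ v + v ⬝ᵥ (R' + s • (1 : Matrix ι ι ℝ)) *ᵥ v := by
    rw [← dotProduct_add, ← Matrix.add_mulVec, ← add_assoc, hNv, ht, dotProduct_comm]
  have hRv : r i * t ^ 2 ≤ v ⬝ᵥ R *ᵥ v := by
    have h1 : v ⬝ᵥ R *ᵥ v = ∑ j, r j * ((Uᵀ *ᵥ v) j) ^ 2 := by
      rw [hR, Matrix.mul_assoc, ← Matrix.mulVec_mulVec, ← Matrix.mulVec_mulVec,
        Matrix.dotProduct_mulVec, ← Matrix.mulVec_transpose, dotProduct]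
      apply Finset.sum_congr rfl
      intro j _
      rw [Matrix.mulVec_diagonal]
      ring
    have h2 : (Uᵀ *ᵥ v) i = t := by
      rw [ht, Matrix.mulVec, dotProduct, dotProduct]
      rfl
    rw [h1, ← h2]
    exact Finset.single_le_sum (f := fun j => r j * ((Uᵀ *ᵥ v) j) ^ 2)
      (fun j _ => mul_nonneg (hr j) (sq_nonneg _)) (Finset.mem_univ i)
  have hcs := cs_inv hP e v
  have hq0 : 0 ≤ v ⬝ᵥ (R' + s • (1 : Matrix ι ι ℝ)) *ᵥ v := quad_nonneg hP.posSemidef v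
  have ht0 : 0 ≤ t := by
    rw [ht1]
    exact add_nonneg (quad_nonneg hRp v) hq0
  have ht2 : t * (1 + r i * F) ≤ F := by
    rcases eq_or_lt_of_le ht0 with h | h
    · rw [← h]; simpa using hF0
    · have h3 : t ^ 2 ≤ F * (t - r i * t ^ 2) := by
        refine hcs.trans ?_
        apply mul_le_mul_of_nonneg_left _ hF0
        linarith
      have h4 : t * (t * (1 + r i * F)) ≤ t * F := by nlinarith
      exact le_of_mul_le_mul_left h4 h
  have hri := hr i
  rw [Matrix.sub_mulVec, dotProduct_sub, hRe, hℓ, ← hv, ← ht]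
  have hrF : 0 < 1 + r i * F := by positivity
  have ht3 : t ≤ F / (1 + r i * F) := by
    rw [le_div_iff₀ hrF]; exact ht2
  have hrs : 0 < r i + s := by positivity
  have h5 : (1 - s * F) * s / (r i + s) ^ 2 ≤ (r i + s)⁻¹ - F / (1 + r i * F) := by
    have h6 : (r i + s)⁻¹ - F / (1 + r i * F) = (1 - s * F) / ((r i + s) * (1 + r i * F)) := by
      field_simp
      ring
    rw [h6, div_le_div_iff₀ (by positivity) (by positivity)]
    have h7 : s * (1 + r i * F) ≤ r i + s := by nlinarith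
    have h8 : 0 ≤ (1 - s * F) * (r i + s) := mul_nonneg (by linarith) hrs.le
    nlinarith
  have h9 : r i * (3 * s / ((r i + s) * (r i + 4 * s))) * (1 - s * F)
      ≤ 3 * (r i * ((1 - s * F) * s / (r i + s) ^ 2)) := by
    have h10 : 3 * s / ((r i + s) * (r i + 4 * s)) ≤ 3 * s / (r i + s) ^ 2 := by
      apply div_le_div_of_nonneg_left (by positivity) (by positivity)
      nlinarith
    have h11 : 0 ≤ r i * (1 - s * F) := mul_nonneg hri (by linarith)
    calc r i * (3 * s / ((r i + s) * (r i + 4 * s))) * (1 - s * F)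
        = (r i * (1 - s * F)) * (3 * s / ((r i + s) * (r i + 4 * s))) := by ring
      _ ≤ (r i * (1 - s * F)) * (3 * s / (r i + s) ^ 2) := mul_le_mul_of_nonneg_left h10 h11
      _ = 3 * (r i * ((1 - s * F) * s / (r i + s) ^ 2)) := by ring
  refine h9.trans ?_
  apply mul_le_mul_of_nonneg_left _ (by norm_num)
  apply mul_le_mul_of_nonneg_left _ hri
  linarith

/-- gap of `rho` -/
noncomputable def gap (s : ℝ) (R R' : Matrix ι ι ℝ) : ℝ := rho s (R + R') - rho s R - rho s R'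

theorem trace_mul_resolvent {R : Matrix ι ι ℝ} {s : ℝ}
    (hN : (R + s • (1 : Matrix ι ι ℝ)).PosDef) :
    (R * (R + s • (1 : Matrix ι ι ℝ))⁻¹).trace
      = Fintype.card ι - s * ((R + s • (1 : Matrix ι ι ℝ))⁻¹).trace := by
  have h1 : (R + s • (1 : Matrix ι ι ℝ)) * (R + s • (1 : Matrix ι ι ℝ))⁻¹ = 1 :=
    Matrix.mul_nonsing_inv _ (det_unit hN)
  have h2 : R * (R + s • (1 : Matrix ι ι ℝ))⁻¹
      = 1 - s • (R + s • (1 : Matrix ι ι ℝ))⁻¹ := by
    rw [Matrix.add_mul, Matrix.smul_mul, Matrix.one_mul] at h1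
    exact eq_sub_of_add_eq h1
  rw [h2, Matrix.trace_sub, Matrix.trace_one, Matrix.trace_smul, smul_eq_mul]

theorem gap_eq {R R' : Matrix ι ι ℝ} (hR : R.PosSemidef) (hR' : R'.PosSemidef) {s : ℝ}
    (hs : 0 < s) : gap s R R' =
      s * ((R * ((R + s • (1 : Matrix ι ι ℝ))⁻¹ - (R + R' + s • (1 : Matrix ι ι ℝ))⁻¹)).trace
        + (R' * ((R' + s • (1 : Matrix ι ι ℝ))⁻¹
          - (R + R' + s • (1 : Matrix ι ι ℝ))⁻¹)).trace) := by
  have h1 := trace_mul_resolvent (posDef_add_smul hR hs)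
  have h2 := trace_mul_resolvent (posDef_add_smul hR' hs)
  have h3 := trace_mul_resolvent (posDef_add_smul (hR.add hR') hs)
  rw [Matrix.add_mul, Matrix.trace_add] at h3
  rw [Matrix.mul_sub, Matrix.mul_sub, Matrix.trace_sub, Matrix.trace_sub, h1, h2]
  unfold gap rho
  rw [Matrix.trace_add]
  linear_combination s * h3

theorem sub_psd_self_add {R R' : Matrix ι ι ℝ} (hR' : R'.PosSemidef) (s : ℝ) :
    (R + R' + s • (1 : Matrix ι ι ℝ) - (R + s • (1 : Matrix ι ι ℝ))).PosSemidef := by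
  have : R + R' + s • (1 : Matrix ι ι ℝ) - (R + s • (1 : Matrix ι ι ℝ)) = R' := by abel
  rw [this]; exact hR'

/-- lower bound for the gap -/
theorem gap_lower {R R' : Matrix ι ι ℝ} (hR : R.PosSemidef) (hR' : R'.PosSemidef) {s : ℝ}
    (hs : 0 < s) : s * ((Lf s R - Lf (4 * s) R) * Lf s R').trace ≤ 3 * gap s R R' := by
  obtain ⟨U, r, hU1, hU2, hr, hRU⟩ := spectral hR
  have h4s : 0 < 4 * s := by positivity
  have e1 : Lf s R - Lf (4 * s) R
      = U * diagonal (fun i => r i * (3 * s / ((r i + s) * (r i + 4 * s)))) * Uᵀ := by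
    rw [hRU, Lf_spectral hU1 hU2 hr hs, Lf_spectral hU1 hU2 hr h4s, ← Matrix.sub_mul,
      ← Matrix.mul_sub, Matrix.diagonal_sub]
    congr 3
    funext i
    have := hr i
    have h1 : r i + s ≠ 0 := by positivity
    have h2 : r i + 4 * s ≠ 0 := by positivity
    field_simp
    ring
  have e2 : ((Lf s R - Lf (4 * s) R) * Lf s R').trace ≤
      3 * (R * ((R + s • (1 : Matrix ι ι ℝ))⁻¹
        - (R + R' + s • (1 : Matrix ι ι ℝ))⁻¹)).trace := by
    rw [e1, trace_spec_mul]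
    have e3 : (R * ((R + s • (1 : Matrix ι ι ℝ))⁻¹
        - (R + R' + s • (1 : Matrix ι ι ℝ))⁻¹)).trace
        = ∑ i, r i * ((fun k => U k i) ⬝ᵥ ((R + s • (1 : Matrix ι ι ℝ))⁻¹
        - (R + R' + s • (1 : Matrix ι ι ℝ))⁻¹) *ᵥ (fun k => U k i)) := by
      conv_lhs => rw [hRU]
      rw [trace_spec_mul]
      rw [← hRU]
    rw [e3, Finset.mul_sum]
    apply Finset.sum_le_sum
    intro i _
    exact eig_bound hR' hU1 hU2 hr hRU hs i
  have e4 : 0 ≤ (R' * ((R' + s • (1 : Matrix ι ι ℝ))⁻¹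
          - (R + R' + s • (1 : Matrix ι ι ℝ))⁻¹)).trace := by
    apply trace_mul_nonneg hR'
    apply inv_sub_psd (posDef_add_smul (hR.add hR') hs) (posDef_add_smul hR' hs)
    have := sub_psd_self_add (R := R') hR s
    rwa [add_comm R' R] at this
  rw [gap_eq hR hR' hs]
  nlinarith

end

end Vale.Agent.P075
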