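import Vale.Agent.Lib.P075.AvBound

/-!
# P075 C2: the discrete forms of the averages converge to the form
-/

namespace Vale.Agent.P075

open Matrix MeasureTheory Filter Topology

/-- index of the dyadic interval of length `2^(-N)` containing `x ≥ 0`. -/
noncomputable def ix (N : ℕ) (x : ℝ) : ℕ := ⌊(2 : ℝ) ^ N * x⌋₊

/-- the step function of the averages. -/
noncomputable def st (N : ℕ) (F : ℝ × ℝ → ℝ) (p : ℝ × ℝ) : ℝ := av N F (ix N p.1) (ix N p.2)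

theorem mem_dyad_neg (N : ℕ) {x : ℝ} (hx : 0 ≤ x) (a : ℕ) :
    x ∈ dyad (-(N : ℤ)) a ↔ ix N x = a := by
  have h2 : (0 : ℝ) < 2 ^ N := by positivity
  rw [ix, Nat.floor_eq_iff (by positivity), dyad, Set.mem_Ico, _root_.zpow_neg, zpow_natCast]
  constructor
  · rintro ⟨h3, h4⟩
    rw [inv_mul_le_iff₀ h2] at h3
    rw [← div_eq_inv_mul, lt_div_iff₀ h2] at h4
    exact ⟨h3, by linarith⟩
  · rintro ⟨h3, h4⟩
    refine ⟨by rwa [inv_mul_le_iff₀ h2], ?_⟩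
    rw [← div_eq_inv_mul, lt_div_iff₀ h2]
    linarith

theorem ix_mem (N : ℕ) {x : ℝ} (hx : 0 ≤ x) : x ∈ dyad (-(N : ℤ)) (ix N x) :=
  (mem_dyad_neg N hx _).2 rfl

theorem ix_eq (N : ℕ) {x : ℝ} {a : ℕ} (hx : x ∈ dyad (-(N : ℤ)) a) : ix N x = a :=
  (mem_dyad_neg N (dyad_subset_Ici _ _ hx) _).1 hx

theorem zpow_scale {k : ℤ} {j N : ℕ} (hk : k = j + 1 - N) :
    (2 : ℝ) ^ k = (2 : ℝ) ^ (-(N : ℤ)) * 2 ^ (j + 1) := by
  rw [← zpow_natCast (2 : ℝ) (j + 1), ← zpow_add₀ (by norm_num : (2 : ℝ) ≠ 0)]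
  congr 1
  push_cast
  linarith

theorem dyad_sub_eq {k : ℤ} {j N : ℕ} (hk : k = j + 1 - N) (m : ℕ) :
    dyad k m = ⋃ x ∈ Finset.range (2 ^ (j + 1)), dyad (-(N : ℤ)) (2 ^ (j + 1) * m + x) := by
  have hs := zpow_scale hk
  have h2 : (0 : ℝ) < (2 : ℝ) ^ (-(N : ℤ)) := by positivity
  have hj : (0 : ℝ) < (2 : ℝ) ^ (j + 1) := by positivity
  ext x
  simp only [Set.mem_iUnion, Finset.mem_range, exists_prop]
  constructor
  · intro hx
    have hx0 := dyad_subset_Ici _ _ hx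
    have h1 := ix_mem N hx0
    have h3 := hx.1
    have h4 := hx.2
    rw [hs, mul_assoc] at h3 h4
    have h5 : (2 : ℝ) ^ (j + 1) * m < ix N x + 1 := by
      have := lt_of_le_of_lt h3 h1.2
      exact lt_of_mul_lt_mul_left this h2.le
    have h6 : (ix N x : ℝ) < 2 ^ (j + 1) * (m + 1) := by
      have := lt_of_le_of_lt h1.1 h4
      exact lt_of_mul_lt_mul_left this h2.le
    have h5' : 2 ^ (j + 1) * m ≤ ix N x := by
      have : (2 ^ (j + 1) * m : ℕ) < ix N x + 1 := by exact_mod_cast h5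
      omega
    have h6' : ix N x < 2 ^ (j + 1) * (m + 1) := by exact_mod_cast h6
    refine ⟨ix N x - 2 ^ (j + 1) * m, ?_, ?_⟩
    · rw [mul_add, mul_one] at h6'
      omega
    · rwa [Nat.add_sub_cancel' h5']
  · rintro ⟨y, hy, hx⟩
    have hy' : (y : ℝ) + 1 ≤ 2 ^ (j + 1) := by exact_mod_cast hy
    have h3 := hx.1
    have h4 := hx.2
    push_cast at h3 h4
    refine ⟨?_, ?_⟩
    · rw [hs, mul_assoc]
      refine le_trans ?_ h3
      exact mul_le_mul_of_nonneg_left (by have : (0:ℝ) ≤ y := by positivity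
                                          linarith) h2.le
    · rw [hs, mul_assoc]
      refine lt_of_lt_of_le h4 ?_
      exact mul_le_mul_of_nonneg_left (by linarith) h2.le

theorem haar_eq_ts {k : ℤ} {j N : ℕ} (hk : k = j + 1 - N) (m y : ℕ) (hy : y < 2 ^ (j + 1))
    {x : ℝ} (hx : x ∈ dyad (-(N : ℤ)) (2 ^ (j + 1) * m + y)) : haar k m x = ts j y := by
  have hs := zpow_scale hk
  have h2 : (0 : ℝ) < (2 : ℝ) ^ (-(N : ℤ)) := by positivity
  have hj : (0 : ℝ) < (2 : ℝ) ^ j := by positivity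
  have hj1 : (2 : ℝ) ^ (j + 1) = 2 * 2 ^ j := by rw [pow_succ]; ring
  have h3 := hx.1
  have h4 := hx.2
  have hy0 : (0 : ℝ) ≤ y := by positivity
  push_cast at h3 h4
  have hlow : (2 : ℝ) ^ k * m ≤ x := by
    rw [hs, mul_assoc]
    exact le_trans (mul_le_mul_of_nonneg_left (by linarith) h2.le) h3
  have hhigh : x < (2 : ℝ) ^ k * (m + 1) := by
    have hy' : (y : ℝ) + 1 ≤ 2 ^ (j + 1) := by exact_mod_cast hy
    rw [hs, mul_assoc]
    exact lt_of_lt_of_le h4 (mul_le_mul_of_nonneg_left (by linarith) h2.le)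
  unfold haar ts
  by_cases hyj : y < 2 ^ j
  · have hyj' : (y : ℝ) + 1 ≤ 2 ^ j := by exact_mod_cast hyj
    have : x < (2 : ℝ) ^ k * (m + 1 / 2) := by
      rw [hs, mul_assoc]
      refine lt_of_lt_of_le h4 (mul_le_mul_of_nonneg_left ?_ h2.le)
      rw [hj1]
      linarith
    rw [if_pos ⟨hlow, this⟩, if_pos hyj]
  · have hyj' : (2 : ℝ) ^ j ≤ y := by
      have : 2 ^ j ≤ y := not_lt.1 hyj
      exact_mod_cast this
    have h5 : (2 : ℝ) ^ k * (m + 1 / 2) ≤ x := by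
      rw [hs, mul_assoc]
      refine le_trans (mul_le_mul_of_nonneg_left ?_ h2.le) h3
      rw [hj1]
      linarith
    rw [if_neg (fun h => absurd h.2 (not_lt.2 h5)), if_pos ⟨h5, hhigh⟩, if_neg hyj]

theorem volume_cube (N a b c : ℕ) :
    volume (dyad (-(N : ℤ)) a ×ˢ dyad (-(N : ℤ)) b ×ˢ dyad (-(N : ℤ)) c) =
      ENNReal.ofReal ((2 : ℝ) ^ (-(N : ℤ)) * ((4 : ℝ) ^ N)⁻¹) := by
  rw [Measure.volume_eq_prod, Measure.prod_prod, volume_dyad, volume_sq,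
    ← ENNReal.ofReal_mul (by positivity)]

theorem volume_cell (k : ℤ) (a b c : ℕ) :
    volume (dyad k a ×ˢ dyad k b ×ˢ dyad k c) =
      ENNReal.ofReal ((2 : ℝ) ^ k * ((2 : ℝ) ^ k * (2 : ℝ) ^ k)) := by
  rw [Measure.volume_eq_prod, Measure.prod_prod, volume_dyad, Measure.volume_eq_prod,
    Measure.prod_prod, volume_dyad, volume_dyad, ← ENNReal.ofReal_mul (by positivity),
    ← ENNReal.ofReal_mul (by positivity)]

/-- the integrand of the form. -/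
noncomputable def ig (F₀ F₁ F₂ : ℝ × ℝ → ℝ) (k : ℤ) (n : ℕ × ℕ × ℕ) (x : ℝ × ℝ × ℝ) : ℝ :=
  F₀ (x.1, x.2.1) * F₁ (x.2.1, x.2.2) * F₂ (x.2.2, x.1) *
      (haar k n.1 x.1 * haar k n.2.1 x.2.1 * haar k n.2.2 x.2.2)

theorem LI_eq (F₀ F₁ F₂ : ℝ × ℝ → ℝ) (k : ℤ) (n : ℕ × ℕ × ℕ) :
    LI F₀ F₁ F₂ k n = (2 : ℝ) ^ (-k) *
      ∫ x in dyad k n.1 ×ˢ dyad k n.2.1 ×ˢ dyad k n.2.2, ig F₀ F₁ F₂ k n x := rfl

theorem ig_step (F₀ F₁ F₂ : ℝ × ℝ → ℝ) {k : ℤ} {j N : ℕ} (hk : k = j + 1 - N) (m n l : ℕ)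
    (x y z : ℕ) (hx : x < 2 ^ (j + 1)) (hy : y < 2 ^ (j + 1)) (hz : z < 2 ^ (j + 1))
    (p : ℝ × ℝ × ℝ)
    (hp : p ∈ dyad (-(N : ℤ)) (2 ^ (j + 1) * m + x) ×ˢ dyad (-(N : ℤ)) (2 ^ (j + 1) * n + y) ×ˢ
      dyad (-(N : ℤ)) (2 ^ (j + 1) * l + z)) :
    ig (st N F₀) (st N F₁) (st N F₂) k (m, n, l) p =
      ts j x * ts j y * ts j z *
        (av N F₀ (2 ^ (j + 1) * m + x) (2 ^ (j + 1) * n + y) *
          av N F₁ (2 ^ (j + 1) * n + y) (2 ^ (j + 1) * l + z) *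
          av N F₂ (2 ^ (j + 1) * l + z) (2 ^ (j + 1) * m + x)) := by
  obtain ⟨h1, h2, h3⟩ := hp
  simp only [ig, st]
  rw [haar_eq_ts hk m x hx h1, haar_eq_ts hk n y hy h2, haar_eq_ts hk l z hz h3,
    ix_eq N h1, ix_eq N h2, ix_eq N h3]
  ring

theorem cell_eq {k : ℤ} {j N : ℕ} (hk : k = j + 1 - N) (m n l : ℕ) :
    dyad k m ×ˢ dyad k n ×ˢ dyad k l =
      ⋃ t ∈ Finset.range (2 ^ (j + 1)) ×ˢ Finset.range (2 ^ (j + 1)) ×ˢ
          Finset.range (2 ^ (j + 1)),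
        dyad (-(N : ℤ)) (2 ^ (j + 1) * m + t.1) ×ˢ dyad (-(N : ℤ)) (2 ^ (j + 1) * n + t.2.1) ×ˢ
          dyad (-(N : ℤ)) (2 ^ (j + 1) * l + t.2.2) := by
  rw [dyad_sub_eq hk m, dyad_sub_eq hk n, dyad_sub_eq hk l]
  ext p
  simp only [Set.mem_prod, Set.mem_iUnion, Finset.mem_product, exists_prop, Prod.exists]
  constructor
  · rintro ⟨⟨x, hx, h1⟩, ⟨y, hy, h2⟩, ⟨z, hz, h3⟩⟩
    exact ⟨x, y, z, ⟨hx, hy, hz⟩, h1, h2, h3⟩
  · rintro ⟨x, y, z, ⟨hx, hy, hz⟩, h1, h2, h3⟩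
    exact ⟨⟨x, hx, h1⟩, ⟨y, hy, h2⟩, ⟨z, hz, h3⟩⟩

theorem LI_step (F₀ F₁ F₂ : ℝ × ℝ → ℝ) {k : ℤ} {j N : ℕ} (hk : k = j + 1 - N) (m n : ℕ) :
    LI (st N F₀) (st N F₁) (st N F₂) k (m, n, m ^^^ n) =
      ((4 : ℝ) ^ N)⁻¹ * (((2 : ℝ) ^ (j + 1))⁻¹ *
        Dd (av N F₀) (av N F₁) (av N F₂) j m n) := by
  set l := m ^^^ n with hl
  have hcube : ∀ t ∈ Finset.range (2 ^ (j + 1)) ×ˢ Finset.range (2 ^ (j + 1)) ×ˢ
      Finset.range (2 ^ (j + 1)),
      MeasurableSet (dyad (-(N : ℤ)) (2 ^ (j + 1) * m + t.1) ×ˢ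
        dyad (-(N : ℤ)) (2 ^ (j + 1) * n + t.2.1) ×ˢ
          dyad (-(N : ℤ)) (2 ^ (j + 1) * l + t.2.2)) := fun t _ =>
    (measurableSet_dyad _ _).prod ((measurableSet_dyad _ _).prod (measurableSet_dyad _ _))
  have hfin : ∀ t : ℕ × ℕ × ℕ, volume (dyad (-(N : ℤ)) (2 ^ (j + 1) * m + t.1) ×ˢ
        dyad (-(N : ℤ)) (2 ^ (j + 1) * n + t.2.1) ×ˢ
          dyad (-(N : ℤ)) (2 ^ (j + 1) * l + t.2.2)) ≠ ⊤ := fun t => by
    rw [volume_cube]; exact ENNReal.ofReal_ne_top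
  rw [LI_eq]
  simp only
  rw [cell_eq hk m n l, integral_biUnion_finset _ hcube]
  · have hval : ∀ t ∈ Finset.range (2 ^ (j + 1)) ×ˢ Finset.range (2 ^ (j + 1)) ×ˢ
        Finset.range (2 ^ (j + 1)),
        ∫ p in dyad (-(N : ℤ)) (2 ^ (j + 1) * m + t.1) ×ˢ
          dyad (-(N : ℤ)) (2 ^ (j + 1) * n + t.2.1) ×ˢ
            dyad (-(N : ℤ)) (2 ^ (j + 1) * l + t.2.2),
          ig (st N F₀) (st N F₁) (st N F₂) k (m, n, l) p =
        ((2 : ℝ) ^ (-(N : ℤ)) * ((4 : ℝ) ^ N)⁻¹) * (ts j t.1 * ts j t.2.1 * ts j t.2.2 *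
        (av N F₀ (2 ^ (j + 1) * m + t.1) (2 ^ (j + 1) * n + t.2.1) *
          av N F₁ (2 ^ (j + 1) * n + t.2.1) (2 ^ (j + 1) * l + t.2.2) *
          av N F₂ (2 ^ (j + 1) * l + t.2.2) (2 ^ (j + 1) * m + t.1))) := by
      intro t ht
      simp only [Finset.mem_product, Finset.mem_range] at ht
      rw [setIntegral_congr_fun (hcube t (by simpa using ht))
        (fun p hp => ig_step F₀ F₁ F₂ hk m n l t.1 t.2.1 t.2.2 ht.1 ht.2.1 ht.2.2 p hp),
        setIntegral_const, Measure.real, volume_cube, ENNReal.toReal_ofReal (by positivity),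
        smul_eq_mul]
    rw [Finset.sum_congr rfl hval, ← Finset.mul_sum, Finset.sum_product]
    simp_rw [Finset.sum_product]
    rw [Dd, ← hl]
    have h1 : (2 : ℝ) ^ (-k) * (2 : ℝ) ^ (-(N : ℤ)) = ((2 : ℝ) ^ (j + 1))⁻¹ := by
      rw [← zpow_natCast (2 : ℝ) (j + 1), ← _root_.zpow_neg,
        ← zpow_add₀ (by norm_num : (2 : ℝ) ≠ 0)]
      congr 1
      push_cast
      linarith
    rw [← h1]
    ring
  · intro t _ u _ htu
    show Disjoint (dyad (-(N : ℤ)) (2 ^ (j + 1) * m + t.1) ×ˢ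
        dyad (-(N : ℤ)) (2 ^ (j + 1) * n + t.2.1) ×ˢ
          dyad (-(N : ℤ)) (2 ^ (j + 1) * l + t.2.2))
      (dyad (-(N : ℤ)) (2 ^ (j + 1) * m + u.1) ×ˢ
        dyad (-(N : ℤ)) (2 ^ (j + 1) * n + u.2.1) ×ˢ
          dyad (-(N : ℤ)) (2 ^ (j + 1) * l + u.2.2))
    rw [Set.disjoint_prod, Set.disjoint_prod]
    by_cases h1 : t.1 = u.1
    · by_cases h2 : t.2.1 = u.2.1
      · right; right
        exact dyad_disjoint _ fun h => htu (Prod.ext h1 (Prod.ext h2 (by omega)))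
      · right; left
        exact dyad_disjoint _ fun h => h2 (by omega)
    · left
      exact dyad_disjoint _ fun h => h1 (by omega)
  · intro t ht
    simp only [Finset.mem_product, Finset.mem_range] at ht
    refine IntegrableOn.congr_fun (f := fun _ => ts j t.1 * ts j t.2.1 * ts j t.2.2 *
        (av N F₀ (2 ^ (j + 1) * m + t.1) (2 ^ (j + 1) * n + t.2.1) *
          av N F₁ (2 ^ (j + 1) * n + t.2.1) (2 ^ (j + 1) * l + t.2.2) *
          av N F₂ (2 ^ (j + 1) * l + t.2.2) (2 ^ (j + 1) * m + t.1)))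
      (integrableOn_const (hfin t))
      (fun p hp => (ig_step F₀ F₁ F₂ hk m n l t.1 t.2.1 t.2.2 ht.1 ht.2.1 ht.2.2 p hp).symm)
      (hcube t (by simpa using ht))

/-- Lebesgue differentiation along the dyadic squares. -/
theorem ae_tendsto_st (F : ℝ × ℝ → ℝ) (hF : Measurable F) (M : ℝ) (hM : ∀ p, |F p| ≤ M) :
    ∀ᵐ p : ℝ × ℝ, p ∈ quad → Tendsto (fun N => st N F p) atTop (𝓝 (F p)) := by
  have hloc : LocallyIntegrable F volume :=
    (memLp_top_of_bound hF.aestronglyMeasurable M (ae_of_all _ hM)).locallyIntegrable le_top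
  filter_upwards [IsUnifLocDoublingMeasure.ae_tendsto_average (μ := volume) hloc 1] with p hp hq
  have hp1 : 0 ≤ p.1 := hq.1
  have hp2 : 0 ≤ p.2 := hq.2
  have hδ : Tendsto (fun N : ℕ => (2 : ℝ) ^ (-(N : ℤ)) / 2) atTop (𝓝[>] 0) := by
    rw [tendsto_nhdsWithin_iff]
    refine ⟨?_, Eventually.of_forall fun N => ?_⟩
    · have h1 : Tendsto (fun N : ℕ => ((1 : ℝ) / 2) ^ N * (1 / 2)) atTop (𝓝 (0 * (1 / 2))) :=
        (tendsto_pow_atTop_nhds_zero_of_lt_one (by norm_num) (by norm_num)).mul_const _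
      rw [zero_mul] at h1
      refine h1.congr fun N => ?_
      rw [_root_.zpow_neg, zpow_natCast, one_div, inv_pow]
      ring
    · simp only [Set.mem_Ioi]
      positivity
  have hmem : ∀ (x : ℝ), 0 ≤ x → ∀ N : ℕ,
      |x - (2 : ℝ) ^ (-(N : ℤ)) * (ix N x + 1 / 2)| ≤ 1 * ((2 : ℝ) ^ (-(N : ℤ)) / 2) := by
    intro x hx N
    have h := ix_mem N hx
    have h1 := h.1
    have h2 := h.2
    rw [abs_le]
    constructor <;> linarith
  have key := hp (l := (atTop : Filter ℕ))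
    (fun N => ((2 : ℝ) ^ (-(N : ℤ)) * (ix N p.1 + 1 / 2), (2 : ℝ) ^ (-(N : ℤ)) * (ix N p.2 + 1 / 2)))
    (fun N => (2 : ℝ) ^ (-(N : ℤ)) / 2) hδ
    (Eventually.of_forall fun N => by
      rw [Metric.mem_closedBall, Prod.dist_eq, Real.dist_eq, Real.dist_eq]
      exact max_le (hmem p.1 hp1 N) (hmem p.2 hp2 N))
  refine key.congr fun N => ?_
  rw [← closedBall_prod_same, Real.closedBall_eq_Icc, Real.closedBall_eq_Icc, st, av_eq_average]
  refine setAverage_congr ?_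
  have hI : ∀ a : ℕ, (Set.Icc ((2 : ℝ) ^ (-(N : ℤ)) * (a + 1 / 2) - (2 : ℝ) ^ (-(N : ℤ)) / 2)
      ((2 : ℝ) ^ (-(N : ℤ)) * (a + 1 / 2) + (2 : ℝ) ^ (-(N : ℤ)) / 2)) =ᵐ[volume]
      dyad (-(N : ℤ)) a := by
    intro a
    have e1 : (2 : ℝ) ^ (-(N : ℤ)) * (a + 1 / 2) - (2 : ℝ) ^ (-(N : ℤ)) / 2 =
      (2 : ℝ) ^ (-(N : ℤ)) * a := by ring
    have e2 : (2 : ℝ) ^ (-(N : ℤ)) * (a + 1 / 2) + (2 : ℝ) ^ (-(N : ℤ)) / 2 =
      (2 : ℝ) ^ (-(N : ℤ)) * (a + 1) := by ring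
    rw [e1, e2, dyad]
    exact Ico_ae_eq_Icc.symm
  exact Measure.set_prod_ae_eq (hI _) (hI _)

theorem abs_haar_le (k : ℤ) (n : ℕ) (x : ℝ) : |haar k n x| ≤ 1 := by
  unfold haar
  split_ifs <;> simp

theorem measurable_haar (k : ℤ) (n : ℕ) : Measurable (haar k n) := by
  unfold haar
  refine Measurable.ite measurableSet_Ico measurable_const ?_
  exact Measurable.ite measurableSet_Ico measurable_const measurable_const

theorem measurable_ix (N : ℕ) : Measurable (ix N) := by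
  unfold ix
  exact Nat.measurable_floor.comp (measurable_const.mul measurable_id)

theorem measurable_st (N : ℕ) (F : ℝ × ℝ → ℝ) : Measurable (st N F) := by
  have hg : Measurable (fun q : ℕ × ℕ => av N F q.1 q.2) := Measurable.of_discrete
  have h : Measurable fun p : ℝ × ℝ => (ix N p.1, ix N p.2) :=
    ((measurable_ix N).comp measurable_fst).prodMk ((measurable_ix N).comp measurable_snd)
  have e : st N F = (fun q : ℕ × ℕ => av N F q.1 q.2) ∘ fun p => (ix N p.1, ix N p.2) := by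
    funext p
    simp only [st, Function.comp]
  rw [e]
  exact hg.comp h

theorem abs_ig_le (F₀ F₁ F₂ : ℝ × ℝ → ℝ) (M : ℝ) (b₀ : ∀ p, |F₀ p| ≤ M) (b₁ : ∀ p, |F₁ p| ≤ M)
    (b₂ : ∀ p, |F₂ p| ≤ M) (k : ℤ) (n : ℕ × ℕ × ℕ) (x : ℝ × ℝ × ℝ) :
    |ig F₀ F₁ F₂ k n x| ≤ M * M * M := by
  have hM : 0 ≤ M := (abs_nonneg _).trans (b₀ 0)
  unfold ig
  rw [abs_mul, abs_mul, abs_mul, abs_mul, abs_mul]
  have h1 : |F₀ (x.1, x.2.1)| * |F₁ (x.2.1, x.2.2)| * |F₂ (x.2.2, x.1)| ≤ M * M * M :=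
    mul_le_mul (mul_le_mul (b₀ _) (b₁ _) (abs_nonneg _) hM) (b₂ _) (abs_nonneg _)
      (mul_nonneg hM hM)
  have h2 : |haar k n.1 x.1| * |haar k n.2.1 x.2.1| * |haar k n.2.2 x.2.2| ≤ 1 * 1 * 1 :=
    mul_le_mul (mul_le_mul (abs_haar_le _ _ _) (abs_haar_le _ _ _) (abs_nonneg _) zero_le_one)
      (abs_haar_le _ _ _) (abs_nonneg _) (by norm_num)
  calc _ ≤ (M * M * M) * (1 * 1 * 1) :=
        mul_le_mul h1 h2 (by positivity) (by positivity)
    _ = _ := by ring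

/-- C2. The discrete forms of the averages converge to the form. `N` is the resolution,
the scale is `k = j + 1 - N`, that is `j = k + N - 1`. -/
theorem LI_tendsto (F₀ F₁ F₂ : ℝ × ℝ → ℝ) (h₀ : Measurable F₀) (h₁ : Measurable F₁)
    (h₂ : Measurable F₂) (M : ℝ) (b₀ : ∀ p, |F₀ p| ≤ M) (b₁ : ∀ p, |F₁ p| ≤ M)
    (b₂ : ∀ p, |F₂ p| ≤ M) (k : ℤ) (m n : ℕ) :
    Filter.Tendsto (fun N : ℕ => ((4 : ℝ) ^ N)⁻¹ * (((2 : ℝ) ^ ((k + N - 1).toNat + 1))⁻¹ *
        Dd (av N F₀) (av N F₁) (av N F₂) (k + N - 1).toNat m n))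
      Filter.atTop (nhds (LI F₀ F₁ F₂ k (m, n, m ^^^ n))) := by
  have hlim : Tendsto (fun N : ℕ => LI (st N F₀) (st N F₁) (st N F₂) k (m, n, m ^^^ n))
      atTop (𝓝 (LI F₀ F₁ F₂ k (m, n, m ^^^ n))) := by
    simp_rw [LI_eq]
    refine Tendsto.const_mul _ ?_
    refine tendsto_integral_of_dominated_convergence (fun _ => M * M * M) ?_ ?_ ?_ ?_
    · intro N
      refine Measurable.aestronglyMeasurable ?_
      have hs0 := measurable_st N F₀
      have hs1 := measurable_st N F₁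
      have hs2 := measurable_st N F₂
      have hh0 := measurable_haar k m
      have hh1 := measurable_haar k n
      have hh2 := measurable_haar k (m ^^^ n)
      unfold ig
      fun_prop
    · exact integrableOn_const (by rw [volume_cell]; exact ENNReal.ofReal_ne_top)
    · intro N
      refine ae_of_all _ fun x => ?_
      rw [Real.norm_eq_abs]
      exact abs_ig_le _ _ _ M (fun p => abs_av_le N F₀ M b₀ _ _) (fun p => abs_av_le N F₁ M b₁ _ _)
        (fun p => abs_av_le N F₂ M b₂ _ _) _ _ _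
    · have q0 : Measure.QuasiMeasurePreserving
          (fun x : ℝ × ℝ × ℝ => (x.1, x.2.1)) volume volume := by
        have e := (measurePreserving_prodAssoc (volume : Measure ℝ) (volume : Measure ℝ)
          (volume : Measure ℝ)).symm MeasurableEquiv.prodAssoc
        exact Measure.quasiMeasurePreserving_fst.comp e.quasiMeasurePreserving
      have q1 : Measure.QuasiMeasurePreserving
          (fun x : ℝ × ℝ × ℝ => (x.2.1, x.2.2)) volume volume :=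
        Measure.quasiMeasurePreserving_snd
      have q2 : Measure.QuasiMeasurePreserving
          (fun x : ℝ × ℝ × ℝ => (x.2.2, x.1)) volume volume := by
        have e := measurePreserving_prodAssoc (volume : Measure ℝ) (volume : Measure ℝ)
          (volume : Measure ℝ)
        have s : MeasurePreserving (Prod.swap : ℝ × ℝ × ℝ → (ℝ × ℝ) × ℝ)
            (volume.prod (volume.prod volume)) ((volume.prod volume).prod volume) :=
          Measure.measurePreserving_swap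
        exact Measure.quasiMeasurePreserving_snd.comp
          (e.quasiMeasurePreserving.comp s.quasiMeasurePreserving)
      have a0 := ae_restrict_of_ae (s := dyad k m ×ˢ dyad k n ×ˢ dyad k (m ^^^ n))
        (q0.ae (ae_tendsto_st F₀ h₀ M b₀))
      have a1 := ae_restrict_of_ae (s := dyad k m ×ˢ dyad k n ×ˢ dyad k (m ^^^ n))
        (q1.ae (ae_tendsto_st F₁ h₁ M b₁))
      have a2 := ae_restrict_of_ae (s := dyad k m ×ˢ dyad k n ×ˢ dyad k (m ^^^ n))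
        (q2.ae (ae_tendsto_st F₂ h₂ M b₂))
      have a3 := ae_restrict_mem (μ := (volume : Measure (ℝ × ℝ × ℝ)))
        ((measurableSet_dyad k m).prod ((measurableSet_dyad k n).prod
          (measurableSet_dyad k (m ^^^ n))))
      filter_upwards [a0, a1, a2, a3] with x hx0 hx1 hx2 hx3
      have p0 := dyad_subset_Ici _ _ hx3.1
      have p1 := dyad_subset_Ici _ _ hx3.2.1
      have p2 := dyad_subset_Ici _ _ hx3.2.2
      unfold ig
      exact (((hx0 ⟨p0, p1⟩).mul (hx1 ⟨p1, p2⟩)).mul (hx2 ⟨p2, p0⟩)).mul_const _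
  refine hlim.congr' ?_
  filter_upwards [eventually_ge_atTop (1 - k).toNat] with N hN
  refine LI_step F₀ F₁ F₂ ?_ m n
  have h1 : 0 ≤ k + N - 1 := by omega
  rw [Int.toNat_of_nonneg h1]
  ring

end Vale.Agent.P075
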