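import Vale.Agent.Lib.P075.Comp

/-! Pinching and convexity. -/

namespace Vale.Agent.P075

open Matrix

section
variable {ι : Type*} [Fintype ι] [DecidableEq ι]

/-- convexity of the inverse, on one vector -/
theorem inv_convex {X Y : Matrix ι ι ℝ} (hX : X.PosDef) (hY : Y.PosDef) (u : ι → ℝ) :
    2 * (u ⬝ᵥ ((1 / 2 : ℝ) • (X + Y))⁻¹ *ᵥ u) ≤ u ⬝ᵥ X⁻¹ *ᵥ u + u ⬝ᵥ Y⁻¹ *ᵥ u := by
  have hM : ((1 / 2 : ℝ) • (X + Y)).PosDef := Matrix.PosDef.smul (hX.add hY) (by norm_num)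
  set v := ((1 / 2 : ℝ) • (X + Y))⁻¹ *ᵥ u with hv
  have hNv : ((1 / 2 : ℝ) • (X + Y)) *ᵥ v = u := by
    rw [hv, Matrix.mulVec_mulVec, Matrix.mul_nonsing_inv _ (det_unit hM), Matrix.one_mulVec]
  have h1 : 2 * (u ⬝ᵥ v) = v ⬝ᵥ X *ᵥ v + v ⬝ᵥ Y *ᵥ v := by
    conv_lhs => rw [← hNv]
    rw [dotProduct_comm, Matrix.smul_mulVec, dotProduct_smul, Matrix.add_mulVec, dotProduct_add,
      smul_eq_mul]
    ring
  have h2 := cs_inv hX u v
  have h3 := cs_inv hY u v
  have hx := quad_nonneg hX.posSemidef v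
  have hy := quad_nonneg hY.posSemidef v
  have hp := quad_nonneg hX.inv.posSemidef u
  have hq := quad_nonneg hY.inv.posSemidef u
  set x := v ⬝ᵥ X *ᵥ v
  set y := v ⬝ᵥ Y *ᵥ v
  set p := u ⬝ᵥ X⁻¹ *ᵥ u
  set q := u ⬝ᵥ Y⁻¹ *ᵥ u
  set t := u ⬝ᵥ v
  have h4 : 2 * t ≤ p + x := by
    apply le_of_sq_le_sq _ (by positivity)
    nlinarith [sq_nonneg (p - x)]
  have h5 : 2 * t ≤ q + y := by
    apply le_of_sq_le_sq _ (by positivity)
    nlinarith [sq_nonneg (q - y)]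
  linarith

theorem trace_std (M : Matrix ι ι ℝ) :
    M.trace = ∑ i, (fun k => (1 : Matrix ι ι ℝ) k i) ⬝ᵥ M *ᵥ (fun k => (1 : Matrix ι ι ℝ) k i) :=
  trace_basis (U := (1 : Matrix ι ι ℝ)) (by simp) M

theorem trace_inv_convex {X Y : Matrix ι ι ℝ} (hX : X.PosDef) (hY : Y.PosDef) :
    2 * (((1 / 2 : ℝ) • (X + Y))⁻¹).trace ≤ (X⁻¹).trace + (Y⁻¹).trace := by
  rw [trace_std (((1 / 2 : ℝ) • (X + Y))⁻¹), trace_std X⁻¹, trace_std Y⁻¹, Finset.mul_sum,
    ← Finset.sum_add_distrib]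
  exact Finset.sum_le_sum fun i _ => inv_convex hX hY _

theorem smul_psd {R : Matrix ι ι ℝ} (hR : R.PosSemidef) {c : ℝ} (hc : 0 ≤ c) :
    (c • R).PosSemidef := Matrix.PosSemidef.smul hR hc

theorem rho_convex {P Q : Matrix ι ι ℝ} (hP : P.PosSemidef) (hQ : Q.PosSemidef) {s : ℝ}
    (hs : 0 < s) : 2 * rho s (P + Q) ≤ rho s ((2 : ℝ) • P) + rho s ((2 : ℝ) • Q) := by
  have h1 := trace_inv_convex (posDef_add_smul (smul_psd hP (by norm_num : (0 : ℝ) ≤ 2)) hs)
    (posDef_add_smul (smul_psd hQ (by norm_num : (0 : ℝ) ≤ 2)) hs)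
  have h2 : (1 / 2 : ℝ) • ((2 : ℝ) • P + s • (1 : Matrix ι ι ℝ) + ((2 : ℝ) • Q + s • 1))
      = P + Q + s • (1 : Matrix ι ι ℝ) := by
    ext i j
    simp only [Matrix.smul_apply, Matrix.add_apply, smul_eq_mul]
    ring
  rw [h2] at h1
  unfold rho
  rw [Matrix.trace_add, Matrix.trace_smul, Matrix.trace_smul, smul_eq_mul, smul_eq_mul]
  nlinarith [mul_le_mul_of_nonneg_left h1 (sq_nonneg s)]

theorem rho_scale {R : Matrix ι ι ℝ} (hR : R.PosSemidef) {c s : ℝ} (hc : 0 < c) (hs : 0 < s) :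
    rho s (c • R) = c * rho (s / c) R := by
  have hsc : 0 < s / c := by positivity
  have hu := det_unit (posDef_add_smul hR hsc)
  have h1 : (c • R + s • (1 : Matrix ι ι ℝ))⁻¹ = c⁻¹ • (R + (s / c) • (1 : Matrix ι ι ℝ))⁻¹ := by
    apply Matrix.inv_eq_right_inv
    have h2 : c • R + s • (1 : Matrix ι ι ℝ) = c • (R + (s / c) • (1 : Matrix ι ι ℝ)) := by
      rw [smul_add, smul_smul, mul_div_cancel₀ _ hc.ne']
    rw [h2, Matrix.smul_mul, Matrix.mul_smul, Matrix.mul_nonsing_inv _ hu, smul_smul,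
      mul_inv_cancel₀ hc.ne', one_smul]
  unfold rho
  rw [h1, Matrix.trace_smul, Matrix.trace_smul, smul_eq_mul, smul_eq_mul]
  field_simp

/-- sign matrix of the top digit -/
def Zm (ι : Type*) [DecidableEq ι] : Matrix (Bool × ι) (Bool × ι) ℝ :=
  diagonal fun p => sg p.1

omit [Fintype ι] in
theorem Zm_transpose : (Zm ι)ᵀ = Zm ι := by
  unfold Zm; rw [Matrix.diagonal_transpose]

theorem sg_mul_self (b : Bool) : sg b * sg b = 1 := by
  cases b <;> simp [sg]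

theorem Zm_mul_self : Zm ι * Zm ι = 1 := by
  unfold Zm
  rw [Matrix.diagonal_mul_diagonal]
  simp only [sg_mul_self]
  exact Matrix.diagonal_one

theorem Zm_conj_psd {R : Matrix (Bool × ι) (Bool × ι) ℝ} (hR : R.PosSemidef) :
    (Zm ι * R * Zm ι).PosSemidef := by
  have := hR.mul_mul_conjTranspose_same (Zm ι)
  rwa [Matrix.conjTranspose_eq_transpose_of_trivial, Zm_transpose] at this

theorem rho_conj {R : Matrix (Bool × ι) (Bool × ι) ℝ} (hR : R.PosSemidef) {s : ℝ} (hs : 0 < s) :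
    rho s (Zm ι * R * Zm ι) = rho s R := by
  obtain ⟨U, r, hU1, hU2, hr, hRU⟩ := spectral hR
  have h1 : Zm ι * R * Zm ι = (Zm ι * U) * diagonal r * (Zm ι * U)ᵀ := by
    rw [hRU, Matrix.transpose_mul, Zm_transpose]
    simp only [Matrix.mul_assoc]
  have h2 : (Zm ι * U)ᵀ * (Zm ι * U) = 1 := by
    rw [Matrix.transpose_mul, Zm_transpose, Matrix.mul_assoc, ← Matrix.mul_assoc (Zm ι) (Zm ι) U,
      Zm_mul_self, Matrix.one_mul, hU1]
  have h3 : (Zm ι * U) * (Zm ι * U)ᵀ = 1 := by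
    rw [Matrix.transpose_mul, Zm_transpose, Matrix.mul_assoc, ← Matrix.mul_assoc U, hU2,
      Matrix.one_mul, Zm_mul_self]
  rw [h1, rho_spectral h2 h3 hr hs, hRU, rho_spectral hU1 hU2 hr hs]

theorem rho_blockDiagonal {o : Type*} [Fintype o] [DecidableEq o] (M : o → Matrix ι ι ℝ) {s : ℝ}
    (h : ∀ k, IsUnit (M k + s • (1 : Matrix ι ι ℝ)).det) :
    rho s (blockDiagonal M) = ∑ k, rho s (M k) := by
  have h1 : (blockDiagonal M + s • (1 : Matrix (ι × o) (ι × o) ℝ))⁻¹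
      = blockDiagonal (fun k => (M k + s • (1 : Matrix ι ι ℝ))⁻¹) := by
    apply Matrix.inv_eq_right_inv
    have h2 : blockDiagonal M + s • (1 : Matrix (ι × o) (ι × o) ℝ)
        = blockDiagonal (fun k => M k + s • (1 : Matrix ι ι ℝ)) := by
      have : (fun k => M k + s • (1 : Matrix ι ι ℝ)) = M + s • (1 : o → Matrix ι ι ℝ) := rfl
      rw [this, Matrix.blockDiagonal_add, Matrix.blockDiagonal_smul, Matrix.blockDiagonal_one]
    rw [h2, ← Matrix.blockDiagonal_mul]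
    have : (fun k => (M k + s • (1 : Matrix ι ι ℝ)) * (M k + s • (1 : Matrix ι ι ℝ))⁻¹)
        = (1 : o → Matrix ι ι ℝ) := by
      funext k
      exact Matrix.mul_nonsing_inv _ (h k)
    rw [this, Matrix.blockDiagonal_one]
  unfold rho
  rw [h1, Matrix.trace_blockDiagonal, Matrix.trace_blockDiagonal, Finset.mul_sum,
    Fintype.card_prod]
  rw [Finset.sum_add_distrib, Finset.sum_sub_distrib, Finset.sum_const, Finset.card_univ,
    nsmul_eq_mul]
  push_cast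
  ring

/-- `R + ZRZ` is twice the block diagonal part -/
theorem add_conj_eq (R : Matrix (Bool × ι) (Bool × ι) ℝ) :
    R + Zm ι * R * Zm ι
      = (blockDiagonal fun b => (2 : ℝ) • blk R b b).submatrix (Equiv.prodComm Bool ι)
          (Equiv.prodComm Bool ι) := by
  ext ⟨a, x⟩ ⟨b, y⟩
  unfold Zm blk
  rw [Matrix.add_apply, Matrix.mul_diagonal, Matrix.diagonal_mul]
  simp only [Equiv.prodComm_apply, Matrix.submatrix_apply, Prod.swap_prod_mk,
    Matrix.blockDiagonal_apply, Matrix.smul_apply, Matrix.of_apply, smul_eq_mul]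
  cases a <;> cases b <;> simp [sg] <;> ring

theorem blk_psd {R : Matrix (Bool × ι) (Bool × ι) ℝ} (hR : R.PosSemidef) (b : Bool) :
    (blk R b b).PosSemidef := by
  have : blk R b b = R.submatrix (fun x => (b, x)) (fun x => (b, x)) := rfl
  rw [this]
  exact hR.submatrix _

theorem rho_add_conj {R : Matrix (Bool × ι) (Bool × ι) ℝ} (hR : R.PosSemidef) {s : ℝ}
    (hs : 0 < s) :
    rho s (R + Zm ι * R * Zm ι) = ∑ b : Bool, rho s ((2 : ℝ) • blk R b b) := by
  rw [add_conj_eq]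
  have h1 := rho_reindex (Equiv.prodComm Bool ι).symm (blockDiagonal fun b => (2 : ℝ) • blk R b b) s
  rw [Equiv.symm_symm] at h1
  rw [h1, rho_blockDiagonal]
  intro b
  exact det_unit (posDef_add_smul (smul_psd (blk_psd hR b) (by norm_num)) hs)

theorem gram_psd (A : Matrix ι ι ℝ) : (Aᵀ * A).PosSemidef := by
  have := Matrix.posSemidef_conjTranspose_mul_self A
  rwa [Matrix.conjTranspose_eq_transpose_of_trivial] at this

theorem gram_psd' (A : Matrix ι ι ℝ) : (A * Aᵀ).PosSemidef := by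
  have := Matrix.posSemidef_self_mul_conjTranspose A
  rwa [Matrix.conjTranspose_eq_transpose_of_trivial] at this

/-- diagonal blocks of `AᵀA + BBᵀ` -/
theorem blk_gram (A B : Matrix (Bool × ι) (Bool × ι) ℝ) (b : Bool) :
    blk (Aᵀ * A + B * Bᵀ) b b
      = ((blk A false b)ᵀ * blk A false b + blk B b (xor false b) * (blk B b (xor false b))ᵀ)
        + ((blk A true b)ᵀ * blk A true b + blk B b (xor true b) * (blk B b (xor true b))ᵀ) := by
  ext x y
  simp only [blk, Matrix.add_apply, Matrix.of_apply, Matrix.mul_apply, Matrix.transpose_apply,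
    Fintype.sum_prod_type, Fintype.sum_bool]
  cases b <;> simp <;> ring

theorem half_step (A B : Matrix (Bool × ι) (Bool × ι) ℝ) {s : ℝ} (hs : 0 < s) :
    rho s (Aᵀ * A + B * Bᵀ) + 1 / 2 * gap s (Aᵀ * A + B * Bᵀ)
        (Zm ι * (Aᵀ * A + B * Bᵀ) * Zm ι)
      ≤ ∑ b : Bool, ∑ a : Bool, rho (s / 4) ((blk A a b)ᵀ * blk A a b
          + blk B b (xor a b) * (blk B b (xor a b))ᵀ) := by
  set R := Aᵀ * A + B * Bᵀ with hRdef
  have hR : R.PosSemidef := (gram_psd A).add (gram_psd' B)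
  have h1 : rho s R + 1 / 2 * gap s R (Zm ι * R * Zm ι)
      = 1 / 2 * ∑ b : Bool, rho s ((2 : ℝ) • blk R b b) := by
    rw [← rho_add_conj hR hs]
    unfold gap
    rw [rho_conj hR hs]
    ring
  rw [h1, Finset.mul_sum]
  apply Finset.sum_le_sum
  intro b _
  rw [hRdef, blk_gram, smul_add, Fintype.sum_bool]
  have hc : ∀ a : Bool, ((blk A a b)ᵀ * blk A a b
      + blk B b (xor a b) * (blk B b (xor a b))ᵀ).PosSemidef :=
    fun a => (gram_psd _).add (gram_psd' _)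
  have h2 := rho_convex (smul_psd (hc false) (by norm_num : (0 : ℝ) ≤ 2))
    (smul_psd (hc true) (by norm_num : (0 : ℝ) ≤ 2)) hs
  rw [smul_smul, smul_smul, rho_scale (hc false) (by norm_num) hs,
    rho_scale (hc true) (by norm_num) hs] at h2
  norm_num at h2 ⊢
  linarith

end

end Vale.Agent.P075
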