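import Vale.Agent.Lib.P075.Defs

/-! Resolvents of positive semidefinite matrices. -/

namespace Vale.Agent.P075

open Matrix

section
variable {ι : Type*} [Fintype ι] [DecidableEq ι]

/-- spectral theorem with a real orthogonal matrix -/
theorem spectral {R : Matrix ι ι ℝ} (hR : R.PosSemidef) :
    ∃ (U : Matrix ι ι ℝ) (r : ι → ℝ), Uᵀ * U = 1 ∧ U * Uᵀ = 1 ∧ (∀ i, 0 ≤ r i) ∧
      R = U * diagonal r * Uᵀ := by
  have hH := hR.isHermitian
  refine ⟨(hH.eigenvectorUnitary : Matrix ι ι ℝ), hH.eigenvalues, ?_, ?_, hR.eigenvalues_nonneg, ?_⟩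
  · have := (Matrix.mem_unitaryGroup_iff' (A := (hH.eigenvectorUnitary : Matrix ι ι ℝ))).1
      hH.eigenvectorUnitary.2
    simpa [Matrix.star_eq_conjTranspose, Matrix.conjTranspose_eq_transpose_of_trivial] using this
  · have := (Matrix.mem_unitaryGroup_iff (A := (hH.eigenvectorUnitary : Matrix ι ι ℝ))).1
      hH.eigenvectorUnitary.2
    simpa [Matrix.star_eq_conjTranspose, Matrix.conjTranspose_eq_transpose_of_trivial] using this
  · have := hH.spectral_theorem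
    conv_lhs => rw [this]
    rw [Unitary.conjStarAlgAut_apply]
    simp [Matrix.star_eq_conjTranspose, Matrix.conjTranspose_eq_transpose_of_trivial]

theorem symm_of_psd {R : Matrix ι ι ℝ} (hR : R.PosSemidef) : Rᵀ = R := by
  have := hR.isHermitian
  rwa [Matrix.IsHermitian, Matrix.conjTranspose_eq_transpose_of_trivial] at this

theorem posDef_add_smul {R : Matrix ι ι ℝ} (hR : R.PosSemidef) {s : ℝ} (hs : 0 < s) :
    (R + s • (1 : Matrix ι ι ℝ)).PosDef := by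
  have h1 : (s • (1 : Matrix ι ι ℝ)).PosDef := Matrix.PosDef.smul Matrix.PosDef.one hs
  exact Matrix.PosDef.posSemidef_add hR h1

theorem det_unit {N : Matrix ι ι ℝ} (hN : N.PosDef) : IsUnit N.det :=
  (Matrix.isUnit_iff_isUnit_det _).1 hN.isUnit

theorem dot_symm {N : Matrix ι ι ℝ} (hN : Nᵀ = N) (u v : ι → ℝ) :
    u ⬝ᵥ N *ᵥ v = v ⬝ᵥ N *ᵥ u := by
  rw [Matrix.dotProduct_mulVec, ← Matrix.mulVec_transpose, hN, dotProduct_comm]

theorem inv_symm {N : Matrix ι ι ℝ} (hN : N.PosDef) : (N⁻¹)ᵀ = N⁻¹ :=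
  symm_of_psd hN.inv.posSemidef

theorem quad_nonneg {N : Matrix ι ι ℝ} (hN : N.PosSemidef) (u : ι → ℝ) : 0 ≤ u ⬝ᵥ N *ᵥ u := by
  have := hN.dotProduct_mulVec_nonneg u
  simpa using this

/-- Cauchy-Schwarz for a form and its inverse -/
theorem cs_inv {N : Matrix ι ι ℝ} (hN : N.PosDef) (u v : ι → ℝ) :
    (u ⬝ᵥ v) ^ 2 ≤ (u ⬝ᵥ N⁻¹ *ᵥ u) * (v ⬝ᵥ N *ᵥ v) := by
  have hs : Nᵀ = N := symm_of_psd hN.posSemidef
  have hu := det_unit hN
  have hmul : N⁻¹ * N = 1 := Matrix.nonsing_inv_mul N hu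
  have key : ∀ t : ℝ, 0 ≤ (v ⬝ᵥ N *ᵥ v) * (t * t) + (-2 * (u ⬝ᵥ v)) * t + (u ⬝ᵥ N⁻¹ *ᵥ u) := by
    intro t
    have h0 := quad_nonneg hN.inv.posSemidef (u - t • (N *ᵥ v))
    have e1 : N⁻¹ *ᵥ (u - t • (N *ᵥ v)) = N⁻¹ *ᵥ u - t • v := by
      rw [Matrix.mulVec_sub, Matrix.mulVec_smul, Matrix.mulVec_mulVec, hmul, Matrix.one_mulVec]
    rw [e1, sub_dotProduct, dotProduct_sub, dotProduct_sub, smul_dotProduct, smul_dotProduct,
      dotProduct_smul, dotProduct_smul] at h0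
    have e2 : (N *ᵥ v) ⬝ᵥ N⁻¹ *ᵥ u = u ⬝ᵥ v := by
      rw [dot_symm (inv_symm hN) (N *ᵥ v) u, Matrix.mulVec_mulVec, hmul, Matrix.one_mulVec]
    have e3 : (N *ᵥ v) ⬝ᵥ v = v ⬝ᵥ N *ᵥ v := dotProduct_comm _ _
    rw [e2, e3] at h0
    simp only [smul_eq_mul] at h0
    nlinarith [h0]
  have := discrim_le_zero key
  unfold discrim at this
  nlinarith [this]

/-- monotonicity of the inverse -/
theorem inv_anti {N P : Matrix ι ι ℝ} (hN : N.PosDef) (hP : P.PosDef)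
    (h : (N - P).PosSemidef) (u : ι → ℝ) : u ⬝ᵥ N⁻¹ *ᵥ u ≤ u ⬝ᵥ P⁻¹ *ᵥ u := by
  set v := N⁻¹ *ᵥ u with hv
  have hu := det_unit hN
  have hNv : N *ᵥ v = u := by
    rw [hv, Matrix.mulVec_mulVec, Matrix.mul_nonsing_inv N hu, Matrix.one_mulVec]
  have h1 : u ⬝ᵥ v = v ⬝ᵥ N *ᵥ v := by rw [hNv, dotProduct_comm]
  have h2 : v ⬝ᵥ P *ᵥ v ≤ v ⬝ᵥ N *ᵥ v := by
    have := quad_nonneg h v
    rw [Matrix.sub_mulVec, dotProduct_sub] at this
    linarith
  have h3 := cs_inv hP u v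
  have h4 : 0 ≤ u ⬝ᵥ v := by rw [h1]; exact quad_nonneg hN.posSemidef v
  have h5 : 0 ≤ u ⬝ᵥ P⁻¹ *ᵥ u := quad_nonneg hP.inv.posSemidef u
  rcases eq_or_lt_of_le h4 with h6 | h6
  · rw [← h6]; exact h5
  · have h7 : (u ⬝ᵥ v) ^ 2 ≤ (u ⬝ᵥ P⁻¹ *ᵥ u) * (u ⬝ᵥ v) := by
      refine h3.trans ?_
      apply mul_le_mul_of_nonneg_left _ h5
      rw [h1]; exact h2
    rw [sq] at h7
    exact le_of_mul_le_mul_right h7 h6

/-- trace in an orthonormal basis -/
theorem trace_basis {U : Matrix ι ι ℝ} (hU : U * Uᵀ = 1) (M : Matrix ι ι ℝ) :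
    M.trace = ∑ i, (fun k => U k i) ⬝ᵥ M *ᵥ (fun k => U k i) := by
  have h1 : (Uᵀ * M * U).trace = M.trace := by
    rw [Matrix.trace_mul_comm, ← Matrix.mul_assoc, hU, Matrix.one_mul]
  rw [← h1, Matrix.trace]
  apply Finset.sum_congr rfl
  intro i _
  rw [Matrix.diag_apply, Matrix.mul_assoc, Matrix.mul_apply]
  rfl

/-- trace of a product with a diagonalized matrix -/
theorem trace_spec_mul (U : Matrix ι ι ℝ) (d : ι → ℝ) (M : Matrix ι ι ℝ) :
    (U * diagonal d * Uᵀ * M).trace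
      = ∑ i, d i * ((fun k => U k i) ⬝ᵥ M *ᵥ (fun k => U k i)) := by
  have h1 : (U * diagonal d * Uᵀ * M).trace = (diagonal d * (Uᵀ * M * U)).trace := by
    rw [Matrix.mul_assoc, Matrix.mul_assoc, Matrix.trace_mul_comm, Matrix.mul_assoc]
  rw [h1, Matrix.trace]
  apply Finset.sum_congr rfl
  intro i _
  rw [Matrix.diag_apply, Matrix.diagonal_mul, Matrix.mul_assoc, Matrix.mul_apply]
  rfl

theorem trace_mul_nonneg {X Y : Matrix ι ι ℝ} (hX : X.PosSemidef) (hY : Y.PosSemidef) :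
    0 ≤ (X * Y).trace := by
  obtain ⟨U, r, hU1, hU2, hr, hX'⟩ := spectral hX
  rw [hX', trace_spec_mul]
  apply Finset.sum_nonneg
  intro i _
  exact mul_nonneg (hr i) (quad_nonneg hY _)

theorem psd_of_quad {X : Matrix ι ι ℝ} (hs : Xᵀ = X) (h : ∀ u, 0 ≤ u ⬝ᵥ X *ᵥ u) :
    X.PosSemidef := by
  apply Matrix.PosSemidef.of_dotProduct_mulVec_nonneg
  · rw [Matrix.IsHermitian, Matrix.conjTranspose_eq_transpose_of_trivial, hs]
  · intro u
    simpa using h u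

theorem inv_sub_psd {N P : Matrix ι ι ℝ} (hN : N.PosDef) (hP : P.PosDef)
    (h : (N - P).PosSemidef) : (P⁻¹ - N⁻¹).PosSemidef := by
  apply psd_of_quad
  · rw [Matrix.transpose_sub, inv_symm hN, inv_symm hP]
  · intro u
    rw [Matrix.sub_mulVec, dotProduct_sub]
    linarith [inv_anti hN hP h u]

/-- `R (R+s)⁻¹` -/
noncomputable def Lf (s : ℝ) (R : Matrix ι ι ℝ) : Matrix ι ι ℝ :=
  1 - s • (R + s • (1 : Matrix ι ι ℝ))⁻¹

theorem inv_spectral {U : Matrix ι ι ℝ} {r : ι → ℝ} (hU1 : Uᵀ * U = 1) (hU2 : U * Uᵀ = 1)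
    (hr : ∀ i, 0 ≤ r i) {s : ℝ} (hs : 0 < s) :
    (U * diagonal r * Uᵀ + s • (1 : Matrix ι ι ℝ))⁻¹
      = U * diagonal (fun i => (r i + s)⁻¹) * Uᵀ := by
  apply Matrix.inv_eq_right_inv
  have h1 : U * diagonal r * Uᵀ + s • (1 : Matrix ι ι ℝ) = U * diagonal (fun i => r i + s) * Uᵀ := by
    have : diagonal (fun i => r i + s) = diagonal r + s • (1 : Matrix ι ι ℝ) := by
      ext i j
      by_cases h : i = j
      · subst h; simp
      · simp [h]
    rw [this, Matrix.mul_add, Matrix.add_mul, Matrix.mul_smul, Matrix.mul_one, Matrix.smul_mul, hU2]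
  rw [h1]
  calc U * diagonal (fun i => r i + s) * Uᵀ * (U * diagonal (fun i => (r i + s)⁻¹) * Uᵀ)
      = U * diagonal (fun i => r i + s) * (Uᵀ * U) * diagonal (fun i => (r i + s)⁻¹) * Uᵀ := by
        simp only [Matrix.mul_assoc]
    _ = U * (diagonal (fun i => r i + s) * diagonal (fun i => (r i + s)⁻¹)) * Uᵀ := by
        rw [hU1, Matrix.mul_one]; simp only [Matrix.mul_assoc]
    _ = 1 := by
        rw [Matrix.diagonal_mul_diagonal]
        have : (fun i => (r i + s) * (r i + s)⁻¹) = fun _ => (1 : ℝ) := by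
          funext i
          exact mul_inv_cancel₀ (by linarith [hr i])
        rw [this, Matrix.diagonal_one, Matrix.mul_one, hU2]

theorem Lf_spectral {U : Matrix ι ι ℝ} {r : ι → ℝ} (hU1 : Uᵀ * U = 1) (hU2 : U * Uᵀ = 1)
    (hr : ∀ i, 0 ≤ r i) {s : ℝ} (hs : 0 < s) :
    Lf s (U * diagonal r * Uᵀ) = U * diagonal (fun i => r i / (r i + s)) * Uᵀ := by
  unfold Lf
  rw [inv_spectral hU1 hU2 hr hs]
  have : diagonal (fun i => r i / (r i + s))
      = (1 : Matrix ι ι ℝ) - s • diagonal (fun i => (r i + s)⁻¹) := by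
    ext i j
    by_cases h : i = j
    · subst h
      have : r i + s ≠ 0 := by linarith [hr i]
      simp
      field_simp
      ring
    · simp [h]
  rw [this, Matrix.mul_sub, Matrix.sub_mul, Matrix.mul_one, hU2, Matrix.mul_smul, Matrix.smul_mul]

theorem rho_spectral {U : Matrix ι ι ℝ} {r : ι → ℝ} (hU1 : Uᵀ * U = 1) (hU2 : U * Uᵀ = 1)
    (hr : ∀ i, 0 ≤ r i) {s : ℝ} (hs : 0 < s) :
    rho s (U * diagonal r * Uᵀ) = ∑ i, r i ^ 2 / (r i + s) := by
  unfold rho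
  have htr : ∀ d : ι → ℝ, (U * diagonal d * Uᵀ).trace = ∑ i, d i := by
    intro d
    rw [Matrix.trace_mul_comm, ← Matrix.mul_assoc, hU1, Matrix.one_mul, Matrix.trace_diagonal]
  rw [inv_spectral hU1 hU2 hr hs, htr, htr, Finset.mul_sum]
  have : s * (Fintype.card ι : ℝ) = ∑ _i : ι, s := by
    rw [Finset.sum_const, Finset.card_univ, nsmul_eq_mul]; ring
  rw [this, ← Finset.sum_sub_distrib, ← Finset.sum_add_distrib]
  apply Finset.sum_congr rfl
  intro i _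
  have : r i + s ≠ 0 := by linarith [hr i]
  field_simp
  ring

end

end Vale.Agent.P075
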