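import Vale.Agent.Lib.P075.Defs

/-!
# P075: singular value decomposition of a real square matrix (A1)
-/

namespace Vale.Agent.P075

open Matrix Finset

section
variable {ι : Type*} [Fintype ι] [DecidableEq ι]

/-- A1. Singular value decomposition. -/
theorem svd (A : Matrix ι ι ℝ) : ∃ (U V : Matrix ι ι ℝ) (a : ι → ℝ),
    Uᵀ * U = 1 ∧ Vᵀ * V = 1 ∧ (∀ i, 0 ≤ a i) ∧ A = U * diagonal a * Vᵀ := by
  classical
  have hA : (Aᵀ * A).IsHermitian := by
    have := Matrix.isHermitian_conjTranspose_mul_self A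
    simpa [Matrix.conjTranspose_eq_transpose_of_trivial] using this
  have hpsd : (Aᵀ * A).PosSemidef := by
    have := Matrix.posSemidef_conjTranspose_mul_self A
    simpa [Matrix.conjTranspose_eq_transpose_of_trivial] using this
  let e : OrthonormalBasis ι ℝ (EuclideanSpace ℝ ι) := hA.eigenvectorBasis
  let l : ι → ℝ := hA.eigenvalues
  have hl : ∀ i, 0 ≤ l i := fun i => hpsd.eigenvalues_nonneg i
  have hev : ∀ i, (Aᵀ * A) *ᵥ (e i).ofLp = l i • (e i).ofLp := fun i => hA.mulVec_eigenvectorBasis i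
  have hee : ∀ i j, (e i).ofLp ⬝ᵥ (e j).ofLp = if i = j then 1 else 0 := by
    intro i j
    have h := orthonormal_iff_ite.mp e.orthonormal j i
    rw [EuclideanSpace.inner_eq_star_dotProduct] at h
    simp only [star_trivial] at h
    rw [h]
    by_cases hij : i = j
    · simp [hij]
    · simp [hij, Ne.symm hij]
  have hww : ∀ i j, (A *ᵥ (e i).ofLp) ⬝ᵥ (A *ᵥ (e j).ofLp) = if i = j then l i else 0 := by
    intro i j
    rw [Matrix.dotProduct_mulVec, Matrix.vecMul_mulVec, ← Matrix.dotProduct_mulVec, hev,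
      dotProduct_smul, hee]
    by_cases hij : i = j
    · simp [hij]
    · simp [hij]
  let a : ι → ℝ := fun i => Real.sqrt (l i)
  have ha : ∀ i, 0 ≤ a i := fun i => Real.sqrt_nonneg _
  have haa : ∀ i, a i * a i = l i := fun i => Real.mul_self_sqrt (hl i)
  let s : Set ι := {i | a i ≠ 0}
  let w : ι → EuclideanSpace ℝ ι := fun i => WithLp.toLp 2 ((a i)⁻¹ • (A *ᵥ (e i).ofLp))
  have hw : Orthonormal ℝ (s.domRestrict w) := by
    rw [orthonormal_iff_ite]
    rintro ⟨i, hi⟩ ⟨j, hj⟩
    rw [EuclideanSpace.inner_eq_star_dotProduct]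
    rw [star_trivial]
    change ((a j)⁻¹ • (A *ᵥ (e j).ofLp)) ⬝ᵥ ((a i)⁻¹ • (A *ᵥ (e i).ofLp)) = _
    rw [smul_dotProduct, dotProduct_smul, hww]
    by_cases hij : i = j
    · subst hij
      have hi' : a i ≠ 0 := hi
      simp only [if_true, smul_eq_mul]
      rw [← haa i]
      field_simp
    · have hji : ¬ j = i := fun h => hij h.symm
      simp [hij, hji]
  obtain ⟨b, hb⟩ := Orthonormal.exists_orthonormalBasis_extension_of_card_eq
    (ι := ι) (𝕜 := ℝ) (E := EuclideanSpace ℝ ι) (by simp) hw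
  have hbb : ∀ i j, (b i).ofLp ⬝ᵥ (b j).ofLp = if i = j then 1 else 0 := by
    intro i j
    have h := orthonormal_iff_ite.mp b.orthonormal j i
    rw [EuclideanSpace.inner_eq_star_dotProduct] at h
    simp only [star_trivial] at h
    rw [h]
    by_cases hij : i = j
    · simp [hij]
    · simp [hij, Ne.symm hij]
  have hAb : ∀ i, A *ᵥ (e i).ofLp = a i • (b i).ofLp := by
    intro i
    by_cases hi : a i = 0
    · have h0 : (A *ᵥ (e i).ofLp) ⬝ᵥ (A *ᵥ (e i).ofLp) = 0 := by
        rw [hww, if_pos rfl, ← haa i, hi, mul_zero]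
      rw [dotProduct_self_eq_zero] at h0
      rw [h0, hi, zero_smul]
    · have h1 : b i = w i := hb i hi
      rw [h1]
      simp only [w]
      rw [smul_smul, mul_inv_cancel₀ hi, one_smul]
  let U : Matrix ι ι ℝ := Matrix.of fun x i => (b i).ofLp x
  let V : Matrix ι ι ℝ := Matrix.of fun x i => (e i).ofLp x
  have hU : Uᵀ * U = 1 := by
    ext i j
    rw [Matrix.mul_apply, Matrix.one_apply]
    exact hbb i j
  have hV : Vᵀ * V = 1 := by
    ext i j
    rw [Matrix.mul_apply, Matrix.one_apply]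
    exact hee i j
  have hV' : V * Vᵀ = 1 := mul_eq_one_comm.mp hV
  have hAV : A * V = U * diagonal a := by
    ext x i
    rw [Matrix.mul_diagonal]
    have := congrFun (hAb i) x
    simp only [Pi.smul_apply, smul_eq_mul] at this
    change (A *ᵥ (e i).ofLp) x = (b i).ofLp x * a i
    rw [this, mul_comm]
  refine ⟨U, V, a, hU, hV, ha, ?_⟩
  rw [← hAV, Matrix.mul_assoc, hV', Matrix.mul_one]

end

end Vale.Agent.P075
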