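import Vale.Agent.Lib.P075.Defs

/-!
# P075: trilinear inequality for orthogonal matrices (A2)
-/

namespace Vale.Agent.P075

open Matrix Finset

section
variable {ι : Type*} [Fintype ι] [DecidableEq ι]

/-- an orthogonal matrix is a contraction, bilinear form with the arithmetic mean. -/
theorem abs_bilin_le (β : Matrix ι ι ℝ) (hβ : βᵀ * β = 1) (x y : ι → ℝ) :
    |∑ j, ∑ k, x j * β j k * y k| ≤ 1 / 2 * ((∑ j, x j ^ 2) + ∑ k, y k ^ 2) := by
  have key : ∑ j, (∑ k, β j k * y k) ^ 2 = ∑ k, y k ^ 2 := by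
    have h1 : ∑ j, (∑ k, β j k * y k) ^ 2 = (β *ᵥ y) ⬝ᵥ (β *ᵥ y) := by
      simp only [dotProduct, mulVec, sq]
    have h2 : (β *ᵥ y) ⬝ᵥ (β *ᵥ y) = y ⬝ᵥ y := by
      rw [Matrix.dotProduct_mulVec, Matrix.vecMul_mulVec, hβ, Matrix.vecMul_one]
    rw [h1, h2]
    simp only [dotProduct, sq]
  have e : ∑ j, ∑ k, x j * β j k * y k = ∑ j, x j * (∑ k, β j k * y k) := by
    refine Finset.sum_congr rfl fun j _ => ?_
    rw [Finset.mul_sum]
    exact Finset.sum_congr rfl fun k _ => by ring
  rw [e]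
  calc |∑ j, x j * (∑ k, β j k * y k)| ≤ ∑ j, |x j * (∑ k, β j k * y k)| :=
        Finset.abs_sum_le_sum_abs _ _
    _ ≤ ∑ j, 1 / 2 * (x j ^ 2 + (∑ k, β j k * y k) ^ 2) := by
        refine Finset.sum_le_sum fun j _ => ?_
        rw [abs_le]
        constructor <;> nlinarith [sq_nonneg (x j + ∑ k, β j k * y k),
          sq_nonneg (x j - ∑ k, β j k * y k)]
    _ = 1 / 2 * ((∑ j, x j ^ 2) + ∑ k, y k ^ 2) := by
        rw [← Finset.mul_sum, Finset.sum_add_distrib, key]

/-- A2. Trilinear inequality for orthogonal matrices (pivot on the largest of the three). -/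
theorem trilinear (α β γ : Matrix ι ι ℝ) (hα : αᵀ * α = 1) (hβ : βᵀ * β = 1) (hγ : γᵀ * γ = 1)
    (a b c : ι → ℝ) (ha : ∀ i, 0 ≤ a i) (hb : ∀ i, 0 ≤ b i) (hc : ∀ i, 0 ≤ c i) :
    |∑ i, ∑ j, ∑ k, a i * b j * c k * (α i j * β j k * γ k i)| ≤
      1 / 2 * ((∑ i, ∑ j, α i j ^ 2 * (max (a i) (b j) * min (a i) (b j) ^ 2)) +
        (∑ j, ∑ k, β j k ^ 2 * (max (b j) (c k) * min (b j) (c k) ^ 2)) +
        ∑ k, ∑ i, γ k i ^ 2 * (max (c k) (a i) * min (c k) (a i) ^ 2)) := by
  classical
  -- pieces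
  set Sa : ℝ := ∑ i, a i * ∑ j, ∑ k, (if b j ≤ a i then b j * α i j else 0) * β j k *
    (if c k ≤ a i then c k * γ k i else 0) with hSa
  set Sb : ℝ := ∑ j, b j * ∑ k, ∑ i, (if c k ≤ b j then c k * β j k else 0) * γ k i *
    (if a i < b j then a i * α i j else 0) with hSb
  set Sc : ℝ := ∑ k, c k * ∑ i, ∑ j, (if a i < c k then a i * γ k i else 0) * α i j *
    (if b j < c k then b j * β j k else 0) with hSc
  have hsplit : ∑ i, ∑ j, ∑ k, a i * b j * c k * (α i j * β j k * γ k i) = Sa + Sb + Sc := by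
    have eSa : Sa = ∑ i, ∑ j, ∑ k, (if b j ≤ a i ∧ c k ≤ a i then
        a i * b j * c k * (α i j * β j k * γ k i) else 0) := by
      rw [hSa]
      refine Finset.sum_congr rfl fun i _ => ?_
      rw [Finset.mul_sum]
      refine Finset.sum_congr rfl fun j _ => ?_
      rw [Finset.mul_sum]
      refine Finset.sum_congr rfl fun k _ => ?_
      by_cases h1 : b j ≤ a i <;> by_cases h2 : c k ≤ a i <;> simp [h1, h2] <;> ring
    have eSb : Sb = ∑ i, ∑ j, ∑ k, (if a i < b j ∧ c k ≤ b j then
        a i * b j * c k * (α i j * β j k * γ k i) else 0) := by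
      rw [hSb]
      have : ∀ j, b j * ∑ k, ∑ i, (if c k ≤ b j then c k * β j k else 0) * γ k i *
          (if a i < b j then a i * α i j else 0) = ∑ i, ∑ k, (if a i < b j ∧ c k ≤ b j then
        a i * b j * c k * (α i j * β j k * γ k i) else 0) := by
        intro j
        rw [Finset.sum_comm, Finset.mul_sum]
        refine Finset.sum_congr rfl fun i _ => ?_
        rw [Finset.mul_sum]
        refine Finset.sum_congr rfl fun k _ => ?_
        by_cases h1 : a i < b j <;> by_cases h2 : c k ≤ b j <;> simp [h1, h2] <;> ring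
      rw [Finset.sum_congr rfl fun j _ => this j, Finset.sum_comm]
    have eSc : Sc = ∑ i, ∑ j, ∑ k, (if a i < c k ∧ b j < c k then
        a i * b j * c k * (α i j * β j k * γ k i) else 0) := by
      rw [hSc]
      have : ∀ k, c k * ∑ i, ∑ j, (if a i < c k then a i * γ k i else 0) * α i j *
          (if b j < c k then b j * β j k else 0) = ∑ i, ∑ j, (if a i < c k ∧ b j < c k then
        a i * b j * c k * (α i j * β j k * γ k i) else 0) := by
        intro k
        rw [Finset.mul_sum]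
        refine Finset.sum_congr rfl fun i _ => ?_
        rw [Finset.mul_sum]
        refine Finset.sum_congr rfl fun j _ => ?_
        by_cases h1 : a i < c k <;> by_cases h2 : b j < c k <;> simp [h1, h2] <;> ring
      rw [Finset.sum_congr rfl fun k _ => this k, Finset.sum_comm]
      refine Finset.sum_congr rfl fun i _ => ?_
      rw [Finset.sum_comm]
    rw [eSa, eSb, eSc, ← Finset.sum_add_distrib, ← Finset.sum_add_distrib]
    refine Finset.sum_congr rfl fun i _ => ?_
    rw [← Finset.sum_add_distrib, ← Finset.sum_add_distrib]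
    refine Finset.sum_congr rfl fun j _ => ?_
    rw [← Finset.sum_add_distrib, ← Finset.sum_add_distrib]
    refine Finset.sum_congr rfl fun k _ => ?_
    by_cases h1 : b j ≤ a i
    · by_cases h2 : c k ≤ a i
      · have h3 : ¬ (a i < b j) := not_lt.mpr h1
        have h4 : ¬ (a i < c k) := not_lt.mpr h2
        simp [h1, h2, h3, h4]
      · have h3 : ¬ (a i < b j) := not_lt.mpr h1
        have h4 : a i < c k := not_le.mp h2
        have h5 : b j < c k := lt_of_le_of_lt h1 h4
        simp [h1, h2, h3, h4, h5]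
    · have h3 : a i < b j := not_le.mp h1
      by_cases h2 : c k ≤ b j
      · have h5 : ¬ (b j < c k) := not_lt.mpr h2
        simp [h1, h2, h3, h5]
      · have h5 : b j < c k := not_le.mp h2
        have h4 : a i < c k := lt_trans h3 h5
        simp [h1, h2, h4, h5]
  have bSa : |Sa| ≤ ∑ i, a i * (1 / 2 * ((∑ j, (if b j ≤ a i then b j * α i j else 0) ^ 2) +
      ∑ k, (if c k ≤ a i then c k * γ k i else 0) ^ 2)) := by
    refine (Finset.abs_sum_le_sum_abs _ _).trans (Finset.sum_le_sum fun i _ => ?_)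
    rw [abs_mul, abs_of_nonneg (ha i)]
    exact mul_le_mul_of_nonneg_left (abs_bilin_le β hβ _ _) (ha i)
  have bSb : |Sb| ≤ ∑ j, b j * (1 / 2 * ((∑ k, (if c k ≤ b j then c k * β j k else 0) ^ 2) +
      ∑ i, (if a i < b j then a i * α i j else 0) ^ 2)) := by
    refine (Finset.abs_sum_le_sum_abs _ _).trans (Finset.sum_le_sum fun j _ => ?_)
    rw [abs_mul, abs_of_nonneg (hb j)]
    exact mul_le_mul_of_nonneg_left (abs_bilin_le γ hγ _ _) (hb j)
  have bSc : |Sc| ≤ ∑ k, c k * (1 / 2 * ((∑ i, (if a i < c k then a i * γ k i else 0) ^ 2) +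
      ∑ j, (if b j < c k then b j * β j k else 0) ^ 2)) := by
    refine (Finset.abs_sum_le_sum_abs _ _).trans (Finset.sum_le_sum fun k _ => ?_)
    rw [abs_mul, abs_of_nonneg (hc k)]
    exact mul_le_mul_of_nonneg_left (abs_bilin_le α hα _ _) (hc k)
  -- the sum of the three bounds
  have hα2 : (∑ i, ∑ j, α i j ^ 2 * (max (a i) (b j) * min (a i) (b j) ^ 2)) =
      (∑ i, a i * ∑ j, (if b j ≤ a i then b j * α i j else 0) ^ 2) +
      ∑ j, b j * ∑ i, (if a i < b j then a i * α i j else 0) ^ 2 := by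
    have e2 : ∑ j, b j * ∑ i, (if a i < b j then a i * α i j else 0) ^ 2 =
        ∑ i, ∑ j, b j * (if a i < b j then a i * α i j else 0) ^ 2 := by
      rw [Finset.sum_congr rfl fun j _ => Finset.mul_sum _ _ _, Finset.sum_comm]
    rw [e2, ← Finset.sum_add_distrib]
    refine Finset.sum_congr rfl fun i _ => ?_
    rw [Finset.mul_sum, ← Finset.sum_add_distrib]
    refine Finset.sum_congr rfl fun j _ => ?_
    by_cases h : b j ≤ a i
    · have h' : ¬ (a i < b j) := not_lt.mpr h
      simp only [h, h', if_true, if_false, max_eq_left h, min_eq_right h]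
      ring
    · have h' : a i < b j := not_le.mp h
      simp only [h, h', if_true, if_false, max_eq_right h'.le, min_eq_left h'.le]
      ring
  have hβ2 : (∑ j, ∑ k, β j k ^ 2 * (max (b j) (c k) * min (b j) (c k) ^ 2)) =
      (∑ j, b j * ∑ k, (if c k ≤ b j then c k * β j k else 0) ^ 2) +
      ∑ k, c k * ∑ j, (if b j < c k then b j * β j k else 0) ^ 2 := by
    have e2 : ∑ k, c k * ∑ j, (if b j < c k then b j * β j k else 0) ^ 2 =
        ∑ j, ∑ k, c k * (if b j < c k then b j * β j k else 0) ^ 2 := by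
      rw [Finset.sum_congr rfl fun k _ => Finset.mul_sum _ _ _, Finset.sum_comm]
    rw [e2, ← Finset.sum_add_distrib]
    refine Finset.sum_congr rfl fun j _ => ?_
    rw [Finset.mul_sum, ← Finset.sum_add_distrib]
    refine Finset.sum_congr rfl fun k _ => ?_
    by_cases h : c k ≤ b j
    · have h' : ¬ (b j < c k) := not_lt.mpr h
      simp only [h, h', if_true, if_false, max_eq_left h, min_eq_right h]
      ring
    · have h' : b j < c k := not_le.mp h
      simp only [h, h', if_true, if_false, max_eq_right h'.le, min_eq_left h'.le]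
      ring
  have hγ2 : (∑ k, ∑ i, γ k i ^ 2 * (max (c k) (a i) * min (c k) (a i) ^ 2)) =
      (∑ i, a i * ∑ k, (if c k ≤ a i then c k * γ k i else 0) ^ 2) +
      ∑ k, c k * ∑ i, (if a i < c k then a i * γ k i else 0) ^ 2 := by
    have e2 : ∑ i, a i * ∑ k, (if c k ≤ a i then c k * γ k i else 0) ^ 2 =
        ∑ k, ∑ i, a i * (if c k ≤ a i then c k * γ k i else 0) ^ 2 := by
      rw [Finset.sum_congr rfl fun i _ => Finset.mul_sum _ _ _, Finset.sum_comm]
    rw [e2, ← Finset.sum_add_distrib]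
    refine Finset.sum_congr rfl fun k _ => ?_
    rw [Finset.mul_sum, ← Finset.sum_add_distrib]
    refine Finset.sum_congr rfl fun i _ => ?_
    by_cases h : c k ≤ a i
    · have h' : ¬ (a i < c k) := not_lt.mpr h
      simp only [h, h', if_true, if_false, max_eq_right h, min_eq_left h]
      ring
    · have h' : a i < c k := not_le.mp h
      simp only [h, h', if_true, if_false, max_eq_left h'.le, min_eq_right h'.le]
      ring
  rw [hsplit, hα2, hβ2, hγ2]
  have t1 : |Sa + Sb + Sc| ≤ |Sa| + |Sb| + |Sc| := abs_add_three _ _ _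
  have q1 : ∑ i, a i * (1 / 2 * ((∑ j, (if b j ≤ a i then b j * α i j else 0) ^ 2) +
      ∑ k, (if c k ≤ a i then c k * γ k i else 0) ^ 2)) =
      1 / 2 * ((∑ i, a i * ∑ j, (if b j ≤ a i then b j * α i j else 0) ^ 2) +
      ∑ i, a i * ∑ k, (if c k ≤ a i then c k * γ k i else 0) ^ 2) := by
    rw [← Finset.sum_add_distrib, Finset.mul_sum]
    exact Finset.sum_congr rfl fun i _ => by ring
  have q2 : ∑ j, b j * (1 / 2 * ((∑ k, (if c k ≤ b j then c k * β j k else 0) ^ 2) +
      ∑ i, (if a i < b j then a i * α i j else 0) ^ 2)) =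
      1 / 2 * ((∑ j, b j * ∑ k, (if c k ≤ b j then c k * β j k else 0) ^ 2) +
      ∑ j, b j * ∑ i, (if a i < b j then a i * α i j else 0) ^ 2) := by
    rw [← Finset.sum_add_distrib, Finset.mul_sum]
    exact Finset.sum_congr rfl fun i _ => by ring
  have q3 : ∑ k, c k * (1 / 2 * ((∑ i, (if a i < c k then a i * γ k i else 0) ^ 2) +
      ∑ j, (if b j < c k then b j * β j k else 0) ^ 2)) =
      1 / 2 * ((∑ k, c k * ∑ i, (if a i < c k then a i * γ k i else 0) ^ 2) +
      ∑ k, c k * ∑ j, (if b j < c k then b j * β j k else 0) ^ 2) := by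
    rw [← Finset.sum_add_distrib, Finset.mul_sum]
    exact Finset.sum_congr rfl fun i _ => by ring
  rw [q1] at bSa
  rw [q2] at bSb
  rw [q3] at bSc
  linarith

end

end Vale.Agent.P075
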