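import Vale.Agent.Lib.P075.Pinch
import Vale.Agent.Lib.P075.Svd
import Vale.Agent.Lib.P075.Trilinear

/-! One step of the induction on scales. -/

namespace Vale.Agent.P075

open Matrix

section
variable {ι : Type*} [Fintype ι] [DecidableEq ι]

theorem tsum_shift_rho {X : Matrix ι ι ℝ} :
    ∑' n : ℤ, (2 : ℝ) ^ n * rho ((4 : ℝ) ^ n / 4) X = 2 * psi X := by
  have h1 : (fun n : ℤ => (2 : ℝ) ^ n * rho ((4 : ℝ) ^ n / 4) X)
      = fun n : ℤ => 2 * ((2 : ℝ) ^ (n - 1) * rho ((4 : ℝ) ^ (n - 1)) X) := by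
    funext n
    rw [zpow_sub₀ (by norm_num : (2 : ℝ) ≠ 0), zpow_sub₀ (by norm_num : (4 : ℝ) ≠ 0), zpow_one,
      zpow_one]
    ring
  rw [h1, tsum_mul_left]
  congr 1
  exact (Equiv.subRight (1 : ℤ)).tsum_eq (fun n : ℤ => (2 : ℝ) ^ n * rho ((4 : ℝ) ^ n) X)

theorem summable_shift_rho {X : Matrix ι ι ℝ} (hX : X.PosSemidef) :
    Summable fun n : ℤ => (2 : ℝ) ^ n * rho ((4 : ℝ) ^ n / 4) X := by
  have h1 : (fun n : ℤ => (2 : ℝ) ^ n * rho ((4 : ℝ) ^ n / 4) X)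
      = fun n : ℤ => 2 * ((2 : ℝ) ^ (n - 1) * rho ((4 : ℝ) ^ (n - 1)) X) := by
    funext n
    rw [zpow_sub₀ (by norm_num : (2 : ℝ) ≠ 0), zpow_sub₀ (by norm_num : (4 : ℝ) ≠ 0), zpow_one,
      zpow_one]
    ring
  rw [h1]
  exact ((Equiv.subRight (1 : ℤ)).summable_iff.2 (summable_psi hX)).mul_left 2

theorem psi_step (A B : Matrix (Bool × ι) (Bool × ι) ℝ) :
    pot A B + 1 / 2 * ∑' n : ℤ, (2 : ℝ) ^ n * gap ((4 : ℝ) ^ n) (Aᵀ * A + B * Bᵀ)
        (Zm ι * (Aᵀ * A + B * Bᵀ) * Zm ι)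
      ≤ 2 * ∑ b : Bool, ∑ a : Bool, pot (blk A a b) (blk B b (xor a b)) := by
  have hR : (Aᵀ * A + B * Bᵀ).PosSemidef := (gram_psd A).add (gram_psd' B)
  have hc : ∀ a b : Bool, ((blk A a b)ᵀ * blk A a b
      + blk B b (xor a b) * (blk B b (xor a b))ᵀ).PosSemidef :=
    fun a b => (gram_psd _).add (gram_psd' _)
  have s1 := summable_psi hR
  have s2 := summable_gap hR (Zm_conj_psd hR)
  have s3 := fun a b : Bool => summable_shift_rho (hc a b)
  have h1 : 2 * ∑ b : Bool, ∑ a : Bool, pot (blk A a b) (blk B b (xor a b))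
      = ∑' n : ℤ, ∑ b : Bool, ∑ a : Bool, (2 : ℝ) ^ n * rho ((4 : ℝ) ^ n / 4)
        ((blk A a b)ᵀ * blk A a b + blk B b (xor a b) * (blk B b (xor a b))ᵀ) := by
    rw [Summable.tsum_finsetSum (fun b _ => summable_sum fun a _ => s3 a b), Finset.mul_sum]
    apply Finset.sum_congr rfl
    intro b _
    rw [Summable.tsum_finsetSum (fun a _ => s3 a b), Finset.mul_sum]
    apply Finset.sum_congr rfl
    intro a _
    rw [tsum_shift_rho]
    rfl
  rw [h1]
  unfold pot psi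
  rw [← tsum_mul_left, ← Summable.tsum_add s1 (s2.mul_left _)]
  refine Summable.tsum_le_tsum (fun n => ?_) (s1.add (s2.mul_left _))
    (summable_sum fun b _ => summable_sum fun a _ => s3 a b)
  have h2 := mul_le_mul_of_nonneg_left (half_step A B (s := (4 : ℝ) ^ n) (by positivity))
    (by positivity : (0 : ℝ) ≤ 2 ^ n)
  simp only [Finset.mul_sum] at h2
  refine le_trans (le_of_eq ?_) h2
  ring

theorem orth_comm {U : Matrix ι ι ℝ} (h : Uᵀ * U = 1) : U * Uᵀ = 1 := mul_eq_one_comm.1 h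

/-- the coupling between two neighbours -/
theorem pair_step {A B U V U' V' : Matrix (Bool × ι) (Bool × ι) ℝ} {a b : Bool × ι → ℝ}
    (hU : Uᵀ * U = 1) (hV : Vᵀ * V = 1) (ha : ∀ i, 0 ≤ a i) (hA : A = U * diagonal a * Vᵀ)
    (hU' : U'ᵀ * U' = 1) (hV' : V'ᵀ * V' = 1) (hb : ∀ i, 0 ≤ b i)
    (hB : B = U' * diagonal b * V'ᵀ) :
    ∑ i, ∑ j, ((Vᵀ * (Zm ι * U')) i j) ^ 2 * (max (a i) (b j) * min (a i) (b j) ^ 2)
      ≤ 240 * (2 * (∑ b : Bool, ∑ a : Bool, pot (blk A a b) (blk B b (xor a b)))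
        - pot A B) := by
  have hR : (Aᵀ * A + B * Bᵀ).PosSemidef := (gram_psd A).add (gram_psd' B)
  have h1 := psi_step A B
  have h2 := G_le_gap hR (Zm_conj_psd hR)
  have e1 : Aᵀ * A = V * diagonal (fun i => a i ^ 2) * Vᵀ := by
    rw [hA, Matrix.transpose_mul, Matrix.transpose_mul, Matrix.transpose_transpose,
      Matrix.diagonal_transpose]
    calc V * (diagonal a * Uᵀ) * (U * diagonal a * Vᵀ)
        = V * diagonal a * (Uᵀ * U) * diagonal a * Vᵀ := by simp only [Matrix.mul_assoc]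
      _ = V * (diagonal a * diagonal a) * Vᵀ := by
          rw [hU, Matrix.mul_one, Matrix.mul_assoc V]
      _ = _ := by
          rw [Matrix.diagonal_mul_diagonal]
          simp only [sq]
  have e2 : Zm ι * (B * Bᵀ) * Zm ι
      = (Zm ι * U') * diagonal (fun i => b i ^ 2) * (Zm ι * U')ᵀ := by
    rw [hB, Matrix.transpose_mul, Matrix.transpose_mul, Matrix.transpose_transpose,
      Matrix.diagonal_transpose, Matrix.transpose_mul, Zm_transpose]
    calc Zm ι * (U' * diagonal b * V'ᵀ * (V' * (diagonal b * U'ᵀ))) * Zm ι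
        = Zm ι * U' * diagonal b * (V'ᵀ * V') * diagonal b * (U'ᵀ * Zm ι) := by
          simp only [Matrix.mul_assoc]
      _ = Zm ι * U' * (diagonal b * diagonal b) * (U'ᵀ * Zm ι) := by
          rw [hV', Matrix.mul_one, Matrix.mul_assoc (Zm ι * U')]
      _ = _ := by
          rw [Matrix.diagonal_mul_diagonal]
          simp only [sq]
  have m1 : (Aᵀ * A + B * Bᵀ - Aᵀ * A).PosSemidef := by
    rw [add_sub_cancel_left]; exact gram_psd' B
  have m2 : (Zm ι * (Aᵀ * A + B * Bᵀ) * Zm ι - Zm ι * (B * Bᵀ) * Zm ι).PosSemidef := by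
    rw [← Matrix.sub_mul, ← Matrix.mul_sub, add_sub_cancel_right]
    exact Zm_conj_psd (gram_psd A)
  have p1 := gram_psd A
  have p2 := Zm_conj_psd (gram_psd' B)
  have h3 : ∑' n, Gs (Aᵀ * A) (Zm ι * (B * Bᵀ) * Zm ι) n
      ≤ ∑' n, Gs (Aᵀ * A + B * Bᵀ) (Zm ι * (Aᵀ * A + B * Bᵀ) * Zm ι) n :=
    Summable.tsum_le_tsum (fun n => Gs_mono p1 m1 p2 m2 n) (summable_Gs p1 p2)
      (summable_Gs hR (Zm_conj_psd hR))
  have hZU1 : (Zm ι * U')ᵀ * (Zm ι * U') = 1 := by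
    rw [Matrix.transpose_mul, Zm_transpose, Matrix.mul_assoc, ← Matrix.mul_assoc (Zm ι) (Zm ι) U',
      Zm_mul_self, Matrix.one_mul, hU']
  have h4 : ∑ i, ∑ j, ((Vᵀ * (Zm ι * U')) i j) ^ 2 * (max (a i) (b j) * min (a i) (b j) ^ 2)
      ≤ 20 * ∑' n, Gs (Aᵀ * A) (Zm ι * (B * Bᵀ) * Zm ι) n := by
    rw [e1, e2, tsum_Gs_spectral hV (orth_comm hV) hZU1 (orth_comm hZU1)
      (fun i => sq_nonneg (a i)) (fun i => sq_nonneg (b i)), Finset.mul_sum]
    apply Finset.sum_le_sum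
    intro i _
    rw [Finset.mul_sum]
    apply Finset.sum_le_sum
    intro j _
    have := mul_le_mul_of_nonneg_left (kap_lower (ha i) (hb j))
      (sq_nonneg ((Vᵀ * (Zm ι * U')) i j))
    linarith
  linarith

theorem trace3 (X Y W : Matrix ι ι ℝ) :
    (X * Y * W).trace = ∑ i, ∑ j, ∑ k, X i j * Y j k * W k i := by
  rw [Matrix.mul_assoc, Matrix.trace]
  apply Finset.sum_congr rfl
  intro i _
  rw [Matrix.diag_apply, Matrix.mul_apply]
  apply Finset.sum_congr rfl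
  intro j _
  rw [Matrix.mul_apply, Finset.mul_sum]
  apply Finset.sum_congr rfl
  intro k _
  ring

theorem blk_trace (A B C : Matrix (Bool × ι) (Bool × ι) ℝ) :
    ∑ a : Bool, ∑ b : Bool, ∑ c : Bool, sg a * sg b * sg c *
        (blk A a b * blk B b c * blk C c a).trace
      = ((Zm ι * A) * (Zm ι * B) * (Zm ι * C)).trace := by
  rw [trace3]
  simp only [trace3, Fintype.sum_prod_type, Zm, Matrix.diagonal_mul, blk, Matrix.of_apply,
    Finset.mul_sum]
  apply Finset.sum_congr rfl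
  intro a _
  calc ∑ b : Bool, ∑ c : Bool, ∑ x : ι, ∑ y : ι, ∑ z : ι,
        sg a * sg b * sg c * (A (a, x) (b, y) * B (b, y) (c, z) * C (c, z) (a, x))
      = ∑ b : Bool, ∑ x : ι, ∑ c : Bool, ∑ y : ι, ∑ z : ι,
        sg a * sg b * sg c * (A (a, x) (b, y) * B (b, y) (c, z) * C (c, z) (a, x)) :=
        Finset.sum_congr rfl fun b _ => Finset.sum_comm
    _ = ∑ x : ι, ∑ b : Bool, ∑ c : Bool, ∑ y : ι, ∑ z : ι,
        sg a * sg b * sg c * (A (a, x) (b, y) * B (b, y) (c, z) * C (c, z) (a, x)) :=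
        Finset.sum_comm
    _ = _ := by
        apply Finset.sum_congr rfl
        intro x _
        apply Finset.sum_congr rfl
        intro b _
        rw [Finset.sum_comm]
        apply Finset.sum_congr rfl
        intro y _
        apply Finset.sum_congr rfl
        intro c _
        apply Finset.sum_congr rfl
        intro z _
        ring

/-- One step of the induction on scales. -/
theorem one_step (A B C : Matrix (Bool × ι) (Bool × ι) ℝ) :
    |∑ a : Bool, ∑ b : Bool, ∑ c : Bool, sg a * sg b * sg c *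
        (blk A a b * blk B b c * blk C c a).trace|
      ≤ 120 * (2 * (∑ a : Bool, ∑ b : Bool,
          pot3 (blk A a b) (blk B b (xor a b)) (blk C (xor a b) a)) - pot3 A B C) := by
  obtain ⟨U₁, V₁, a, hU₁, hV₁, ha, hA⟩ := svd A
  obtain ⟨U₂, V₂, b, hU₂, hV₂, hb, hB⟩ := svd B
  obtain ⟨U₃, V₃, c, hU₃, hV₃, hc, hC⟩ := svd C
  have hZ : ∀ {U V : Matrix (Bool × ι) (Bool × ι) ℝ}, Uᵀ * U = 1 → Vᵀ * V = 1 →
      (Vᵀ * (Zm ι * U))ᵀ * (Vᵀ * (Zm ι * U)) = 1 := by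
    intro U V hU hV
    rw [Matrix.transpose_mul, Matrix.transpose_transpose, Matrix.transpose_mul, Zm_transpose]
    calc Uᵀ * Zm ι * V * (Vᵀ * (Zm ι * U)) = Uᵀ * (Zm ι * (V * Vᵀ) * Zm ι) * U := by
          simp only [Matrix.mul_assoc]
      _ = 1 := by rw [orth_comm hV, Matrix.mul_one, Zm_mul_self, Matrix.mul_one, hU]
  have t := trilinear (V₁ᵀ * (Zm ι * U₂)) (V₂ᵀ * (Zm ι * U₃)) (V₃ᵀ * (Zm ι * U₁))
    (hZ hU₂ hV₁) (hZ hU₃ hV₂) (hZ hU₁ hV₃) a b c ha hb hc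
  have e : ((Zm ι * A) * (Zm ι * B) * (Zm ι * C)).trace
      = ∑ i, ∑ j, ∑ k, a i * b j * c k * ((V₁ᵀ * (Zm ι * U₂)) i j * (V₂ᵀ * (Zm ι * U₃)) j k
        * (V₃ᵀ * (Zm ι * U₁)) k i) := by
    have e1 : ((Zm ι * A) * (Zm ι * B) * (Zm ι * C)).trace
        = ((diagonal a * (V₁ᵀ * (Zm ι * U₂))) * (diagonal b * (V₂ᵀ * (Zm ι * U₃)))
          * (diagonal c * (V₃ᵀ * (Zm ι * U₁)))).trace := by
      have e2 : (Zm ι * A) * (Zm ι * B) * (Zm ι * C)
          = (Zm ι * U₁) * ((diagonal a * (V₁ᵀ * (Zm ι * U₂))) * (diagonal b * (V₂ᵀ * (Zm ι * U₃)))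
          * (diagonal c * V₃ᵀ)) := by
        rw [hA, hB, hC]; simp only [Matrix.mul_assoc]
      rw [e2, Matrix.trace_mul_comm]
      simp only [Matrix.mul_assoc]
    rw [e1, trace3]
    apply Finset.sum_congr rfl
    intro i _
    apply Finset.sum_congr rfl
    intro j _
    apply Finset.sum_congr rfl
    intro k _
    rw [Matrix.diagonal_mul, Matrix.diagonal_mul, Matrix.diagonal_mul]
    ring
  rw [blk_trace, e]
  have p1 := pair_step hU₁ hV₁ ha hA hU₂ hV₂ hb hB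
  have p2 := pair_step hU₂ hV₂ hb hB hU₃ hV₃ hc hC
  have p3 := pair_step hU₃ hV₃ hc hC hU₁ hV₁ ha hA
  refine t.trans ?_
  have q : 2 * (∑ a : Bool, ∑ b : Bool,
        pot3 (blk A a b) (blk B b (xor a b)) (blk C (xor a b) a)) - pot3 A B C
      = (2 * (∑ b : Bool, ∑ a : Bool, pot (blk A a b) (blk B b (xor a b))) - pot A B)
        + (2 * (∑ b : Bool, ∑ a : Bool, pot (blk B a b) (blk C b (xor a b))) - pot B C)
        + (2 * (∑ b : Bool, ∑ a : Bool, pot (blk C a b) (blk A b (xor a b))) - pot C A) := by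
    unfold pot3
    simp only [Fintype.sum_bool, Bool.xor_false, Bool.false_xor, Bool.xor_true,
      Bool.true_xor, Bool.not_false, Bool.not_true]
    ring
  rw [q]
  linarith

end

end Vale.Agent.P075
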