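import Vale.Agent.Lib.P075.Gap

/-! Summability over the scales. -/

namespace Vale.Agent.P075

open Matrix

theorem summable_two_sided {f : ℤ → ℝ} {c : ℝ} (h0 : ∀ n, 0 ≤ f n)
    (h1 : ∀ n, f n ≤ c * (2 : ℝ) ^ n) (h2 : ∀ n, f n ≤ c * (2 : ℝ) ^ (-n)) : Summable f := by
  apply Summable.of_nat_of_neg
  · apply Summable.of_nonneg_of_le (fun n => h0 _) (fun n : ℕ => h2 (n : ℤ))
    have : Summable fun n : ℕ => c * ((1 / 2 : ℝ)) ^ n :=
      (summable_geometric_of_lt_one (by norm_num) (by norm_num)).mul_left c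
    refine this.congr fun n => ?_
    rw [_root_.zpow_neg, zpow_natCast, one_div, inv_pow]
  · apply Summable.of_nonneg_of_le (fun n => h0 _) (fun n : ℕ => h1 (-(n : ℤ)))
    have : Summable fun n : ℕ => c * ((1 / 2 : ℝ)) ^ n :=
      (summable_geometric_of_lt_one (by norm_num) (by norm_num)).mul_left c
    refine this.congr fun n => ?_
    rw [_root_.zpow_neg, zpow_natCast, one_div, inv_pow]

theorem four_zpow (n : ℤ) : (4 : ℝ) ^ n = 2 ^ n * 2 ^ n := by
  rw [← mul_zpow]; norm_num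

theorem eight_zpow (n : ℤ) : (8 : ℝ) ^ n = 2 ^ n * (2 ^ n * 2 ^ n) := by
  rw [← mul_zpow, ← mul_zpow]; norm_num

/-- scalar terms of the potential are summable -/
theorem summable_psi_scalar {r : ℝ} (hr : 0 ≤ r) :
    Summable fun n : ℤ => (2 : ℝ) ^ n * (r ^ 2 / (r + (4 : ℝ) ^ n)) := by
  apply summable_two_sided (c := max r (r ^ 2))
  · intro n; positivity
  · intro n
    have h2 : (0 : ℝ) < 2 ^ n := by positivity
    have h4 : (0 : ℝ) < 4 ^ n := by positivity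
    rw [mul_comm]
    apply mul_le_mul_of_nonneg_right _ h2.le
    refine le_trans ?_ (le_max_left _ _)
    rw [div_le_iff₀ (by positivity)]
    nlinarith
  · intro n
    have h2 : (0 : ℝ) < 2 ^ n := by positivity
    have h4 : (0 : ℝ) < 4 ^ n := by positivity
    have h5 : (2 : ℝ) ^ n * (r ^ 2 / (r + (4 : ℝ) ^ n)) ≤ r ^ 2 * 2 ^ (-n) := by
      rw [_root_.zpow_neg, mul_div_assoc', div_le_iff₀ (by positivity), four_zpow]
      have : r ^ 2 * ((2 : ℝ) ^ n)⁻¹ * (r + 2 ^ n * 2 ^ n)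
          = r ^ 3 * ((2 : ℝ) ^ n)⁻¹ + r ^ 2 * 2 ^ n := by
        field_simp
      rw [this]
      have : 0 ≤ r ^ 3 * ((2 : ℝ) ^ n)⁻¹ := by positivity
      linarith
    refine h5.trans ?_
    apply mul_le_mul_of_nonneg_right (le_max_right _ _) (by positivity)

/-- the kernel `κ` -/
noncomputable def kap (p q : ℝ) (n : ℤ) : ℝ :=
  (8 : ℝ) ^ n * (p / (p + (4 : ℝ) ^ n) * (q / (q + (4 : ℝ) ^ n)))

theorem kap_nonneg {p q : ℝ} (hp : 0 ≤ p) (hq : 0 ≤ q) (n : ℤ) : 0 ≤ kap p q n := by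
  unfold kap; positivity

theorem summable_kap {p q : ℝ} (hp : 0 ≤ p) (hq : 0 ≤ q) : Summable (kap p q) := by
  have key1 : ∀ (r : ℝ) (_ : 0 ≤ r) (n : ℤ), r / (r + (4 : ℝ) ^ n) ≤ 1 := by
    intro r hr n
    have h4 : (0 : ℝ) < 4 ^ n := by positivity
    rw [div_le_one (by positivity)]; linarith
  have key2 : ∀ (r : ℝ) (_ : 0 ≤ r) (n : ℤ), r / (r + (4 : ℝ) ^ n) ≤ r * (2 ^ (-n) * 2 ^ (-n)) := by
    intro r hr n
    have h4 : (0 : ℝ) < 4 ^ n := by positivity
    rw [← mul_zpow]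
    have : ((2 : ℝ) * 2) ^ (-n) = ((4 : ℝ) ^ n)⁻¹ := by rw [_root_.zpow_neg]; norm_num
    rw [this, div_eq_mul_inv]
    apply mul_le_mul_of_nonneg_left _ hr
    apply inv_anti₀ h4
    linarith
  apply summable_two_sided (c := max p (p * q))
  · exact kap_nonneg hp hq
  · intro n
    unfold kap
    have h2 : (0 : ℝ) < 2 ^ n := by positivity
    have h3 : (2 : ℝ) ^ n * 2 ^ (-n) = 1 := by rw [← zpow_add₀ (by norm_num)]; simp
    have a1 := key2 p hp n
    have a2 := key1 q hq n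
    have a3 : 0 ≤ q / (q + (4 : ℝ) ^ n) := by positivity
    have a4 : 0 ≤ p / (p + (4 : ℝ) ^ n) := by positivity
    calc (8 : ℝ) ^ n * (p / (p + (4 : ℝ) ^ n) * (q / (q + (4 : ℝ) ^ n)))
        ≤ (8 : ℝ) ^ n * (p * (2 ^ (-n) * 2 ^ (-n)) * 1) := by
          apply mul_le_mul_of_nonneg_left _ (by positivity)
          exact mul_le_mul a1 a2 a3 (by positivity)
      _ = p * 2 ^ n * (2 ^ n * 2 ^ (-n)) * (2 ^ n * 2 ^ (-n)) := by rw [eight_zpow]; ring
      _ = p * 2 ^ n := by rw [h3]; ring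
      _ ≤ _ := mul_le_mul_of_nonneg_right (le_max_left _ _) h2.le
  · intro n
    unfold kap
    have h2 : (0 : ℝ) < 2 ^ n := by positivity
    have h3 : (2 : ℝ) ^ n * 2 ^ (-n) = 1 := by rw [← zpow_add₀ (by norm_num)]; simp
    have a1 := key2 p hp n
    have a2 := key2 q hq n
    have a3 : 0 ≤ q / (q + (4 : ℝ) ^ n) := by positivity
    have a4 : 0 ≤ p / (p + (4 : ℝ) ^ n) := by positivity
    calc (8 : ℝ) ^ n * (p / (p + (4 : ℝ) ^ n) * (q / (q + (4 : ℝ) ^ n)))
        ≤ (8 : ℝ) ^ n * (p * (2 ^ (-n) * 2 ^ (-n)) * (q * (2 ^ (-n) * 2 ^ (-n)))) := by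
          apply mul_le_mul_of_nonneg_left _ (by positivity)
          exact mul_le_mul a1 a2 a3 (by positivity)
      _ = p * q * 2 ^ (-n) * (2 ^ n * 2 ^ (-n)) * (2 ^ n * 2 ^ (-n)) * (2 ^ n * 2 ^ (-n)) := by
          rw [eight_zpow]; ring
      _ = p * q * 2 ^ (-n) := by rw [h3]; ring
      _ ≤ _ := mul_le_mul_of_nonneg_right (le_max_right _ _) (by positivity)

/-- lower bound of the kernel -/
theorem kap_lower {a b : ℝ} (ha : 0 ≤ a) (hb : 0 ≤ b) :
    max a b * min a b ^ 2 ≤ 20 * ∑' n : ℤ, kap (a ^ 2) (b ^ 2) n := by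
  have hs := summable_kap (sq_nonneg a) (sq_nonneg b)
  have h0 : ∀ n, 0 ≤ kap (a ^ 2) (b ^ 2) n := kap_nonneg (sq_nonneg a) (sq_nonneg b)
  -- one term suffices
  have key : ∀ x y : ℝ, 0 < y → y ≤ x → ∃ n : ℤ, x * y ^ 2 ≤ 20 * kap (x ^ 2) (y ^ 2) n := by
    intro x y hy hyx
    have hx : 0 < x := lt_of_lt_of_le hy hyx
    obtain ⟨n, hn1, hn2⟩ := exists_mem_Ico_zpow (x := x) (y := (2 : ℝ)) hx (by norm_num)
    refine ⟨n, ?_⟩
    rw [zpow_add₀ (by norm_num), zpow_one] at hn2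
    unfold kap
    rw [four_zpow, eight_zpow]
    set u : ℝ := 2 ^ n with hu
    have hu0 : 0 < u := by rw [hu]; positivity
    have e1 : u * (u * u) * (x ^ 2 / (x ^ 2 + u * u) * (y ^ 2 / (y ^ 2 + u * u)))
        = (u ^ 3 * x ^ 2 * y ^ 2) / ((x ^ 2 + u * u) * (y ^ 2 + u * u)) := by
      field_simp
    rw [e1, mul_div_assoc', le_div_iff₀ (by positivity)]
    have h1 : (x ^ 2 + u * u) * (y ^ 2 + u * u) ≤ (x ^ 2 + u * u) ^ 2 := by
      rw [sq (x ^ 2 + u * u)]
      apply mul_le_mul_of_nonneg_left _ (by positivity)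
      nlinarith
    have h2 : (x ^ 2 + u * u) ^ 2 ≤ 20 * u ^ 3 * x := by
      -- with x = λ u
      have h3 : x ^ 2 + u * u ≤ 3 * (x * u) := by nlinarith
      have h4 : 0 ≤ x ^ 2 + u * u := by positivity
      have h5 : (x ^ 2 + u * u) ^ 2 ≤ (3 * (x * u)) ^ 2 := by
        apply pow_le_pow_left₀ h4 h3
      have h6 : (3 * (x * u)) ^ 2 = 9 * (u ^ 2 * x) * x := by ring
      have h7 : 9 * (u ^ 2 * x) * x ≤ 9 * (u ^ 2 * x) * (2 * u) := by
        apply mul_le_mul_of_nonneg_left _ (by positivity)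
        linarith
      have h8 : 0 ≤ u ^ 3 * x := by positivity
      nlinarith
    calc x * y ^ 2 * ((x ^ 2 + u * u) * (y ^ 2 + u * u))
        ≤ x * y ^ 2 * (20 * u ^ 3 * x) := by
          apply mul_le_mul_of_nonneg_left (h1.trans h2) (by positivity)
      _ = 20 * (u ^ 3 * x ^ 2 * y ^ 2) := by ring
  rcases le_total a b with hab | hab
  · rw [max_eq_right hab, min_eq_left hab]
    rcases eq_or_lt_of_le ha with h | h
    · rw [← h]
      have : 0 ≤ ∑' n : ℤ, kap (0 ^ 2) (b ^ 2) n := tsum_nonneg fun n => by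
        have := h0 n; rwa [← h] at this
      simpa using this
    · obtain ⟨n, hn⟩ := key b a h hab
      have : kap (b ^ 2) (a ^ 2) n = kap (a ^ 2) (b ^ 2) n := by unfold kap; ring
      rw [this] at hn
      have := hs.le_tsum n (fun m _ => h0 m)
      linarith
  · rw [max_eq_left hab, min_eq_right hab]
    rcases eq_or_lt_of_le hb with h | h
    · rw [← h]
      have : 0 ≤ ∑' n : ℤ, kap (a ^ 2) (0 ^ 2) n := tsum_nonneg fun n => by
        have := h0 n; rwa [← h] at this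
      simpa using this
    · obtain ⟨n, hn⟩ := key a b h hab
      have := hs.le_tsum n (fun m _ => h0 m)
      linarith

section
variable {ι : Type*} [Fintype ι] [DecidableEq ι]

theorem rho_nonneg {R : Matrix ι ι ℝ} (hR : R.PosSemidef) {s : ℝ} (hs : 0 < s) :
    0 ≤ rho s R := by
  obtain ⟨U, r, hU1, hU2, hr, hRU⟩ := spectral hR
  rw [hRU, rho_spectral hU1 hU2 hr hs]
  apply Finset.sum_nonneg
  intro i _
  have := hr i
  positivity

theorem summable_psi {R : Matrix ι ι ℝ} (hR : R.PosSemidef) :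
    Summable fun n : ℤ => (2 : ℝ) ^ n * rho ((4 : ℝ) ^ n) R := by
  obtain ⟨U, r, hU1, hU2, hr, hRU⟩ := spectral hR
  have : (fun n : ℤ => (2 : ℝ) ^ n * rho ((4 : ℝ) ^ n) R)
      = fun n : ℤ => ∑ i, (2 : ℝ) ^ n * (r i ^ 2 / (r i + (4 : ℝ) ^ n)) := by
    funext n
    rw [hRU, rho_spectral hU1 hU2 hr (by positivity), Finset.mul_sum]
  rw [this]
  exact summable_sum fun i _ => summable_psi_scalar (hr i)

theorem psi_nonneg (R : Matrix ι ι ℝ) (hR : R.PosSemidef) : 0 ≤ psi R := by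
  unfold psi
  exact tsum_nonneg fun n => mul_nonneg (by positivity) (rho_nonneg hR (by positivity))

theorem rho_reindex {κ : Type*} [Fintype κ] [DecidableEq κ] (e : ι ≃ κ) (R : Matrix ι ι ℝ)
    (s : ℝ) : rho s (R.submatrix e.symm e.symm) = rho s R := by
  unfold rho
  have h1 : (R.submatrix e.symm e.symm).trace = R.trace := by
    rw [Matrix.trace, Matrix.trace]
    exact Equiv.sum_comp e.symm (fun i => R i i)
  have h2 : R.submatrix e.symm e.symm + s • (1 : Matrix κ κ ℝ)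
      = (R + s • (1 : Matrix ι ι ℝ)).submatrix e.symm e.symm := by
    ext i j
    simp [Matrix.submatrix_apply, Matrix.one_apply]
  have h3 : ((R + s • (1 : Matrix ι ι ℝ)).submatrix e.symm e.symm)⁻¹
      = ((R + s • (1 : Matrix ι ι ℝ))⁻¹).submatrix e.symm e.symm :=
    Matrix.inv_submatrix_equiv _ _ _
  have h4 : (((R + s • (1 : Matrix ι ι ℝ))⁻¹).submatrix e.symm e.symm).trace
      = ((R + s • (1 : Matrix ι ι ℝ))⁻¹).trace := by
    rw [Matrix.trace, Matrix.trace]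
    exact Equiv.sum_comp e.symm (fun i => (R + s • (1 : Matrix ι ι ℝ))⁻¹ i i)
  rw [h1, h2, h3, h4, Fintype.card_congr e]

theorem psi_reindex {κ : Type*} [Fintype κ] [DecidableEq κ] (e : ι ≃ κ) (R : Matrix ι ι ℝ) :
    psi (R.submatrix e.symm e.symm) = psi R := by
  unfold psi
  simp only [rho_reindex]

end

end Vale.Agent.P075
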